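import Vale.Agent.P168.Tree.Marginal

/-!
# P168: derivatives in the potential
-/

open Real Finset

namespace Vale.Agent.P168

variable {L n : ℕ} {Z : Type} [Fintype Z] [DecidableEq Z] [Nonempty Z]

theorem hasDerivAt_vAt (G : Grid L) {H : ℝ → (Fin L → Z) → ℝ} {Y : (Fin L → Z) → ℝ} {u : ℝ}
    (hH : ∀ ξ, HasDerivAt (fun v => H v ξ) (Y ξ) u) (t : ℕ) (p : Fin L → Z) :
    HasDerivAt (fun v => vAt G (H v) t p) (cndAt G (H u) t Y p) u := by
  induction hd : L - t generalizing t p with
  | zero =>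
    have ht : L ≤ t := by omega
    simp only [vAt_top G _ ht, cndAt_top G _ ht]
    exact hH p
  | succ d ih =>
    have ht : t < L := by omega
    have hm := G.m_pos (t + 1) (by omega) ht
    have hz : (0 : ℝ) < Fintype.card Z := Nat.cast_pos.2 Fintype.card_pos
    have hsum : 0 < ∑ z, exp (G.m (t + 1) * vAt G (H u) (t + 1) (putZ p t z)) :=
      sum_pos (fun _ _ => exp_pos _) univ_nonempty
    have h1 : ∀ z, HasDerivAt (fun v => exp (G.m (t + 1) * vAt G (H v) (t + 1) (putZ p t z)))
        (exp (G.m (t + 1) * vAt G (H u) (t + 1) (putZ p t z)) *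
          (G.m (t + 1) * cndAt G (H u) (t + 1) Y (putZ p t z))) u := fun z =>
      ((ih (t + 1) _ (by omega)).const_mul _).exp
    have h2 := (((HasDerivAt.fun_sum fun z _ => h1 z).div_const (Fintype.card Z : ℝ)).log
      (by positivity)).div_const (G.m (t + 1))
    simp only [vAt_step G _ ht, mean]
    refine h2.congr_deriv ?_
    rw [cndAt_step G (H u) ht]
    have hinc : ∀ z, exp (incr G (H u) (t + 1) (putZ p t z)) =
        exp (G.m (t + 1) * vAt G (H u) (t + 1) (putZ p t z)) /
          ((∑ z, exp (G.m (t + 1) * vAt G (H u) (t + 1) (putZ p t z))) / Fintype.card Z) := fun z => by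
      rw [incr, show t + 1 - 1 = t by omega,
        vAt_congr G (H u) t (p' := p) fun c hc => by simp [putZ, hc.ne], mul_sub, exp_sub,
        vAt_step G (H u) ht p, mul_div_cancel₀ _ hm.ne', exp_log (by unfold mean; positivity), mean]
    simp only [hinc]
    rw [div_div, eq_comm]
    simp only [div_mul_eq_mul_div, ← sum_div]
    rw [show (∑ z, exp (G.m (t + 1) * vAt G (H u) (t + 1) (putZ p t z)) *
        (G.m (t + 1) * cndAt G (H u) (t + 1) Y (putZ p t z))) = G.m (t + 1) *
        ∑ z, exp (G.m (t + 1) * vAt G (H u) (t + 1) (putZ p t z)) *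
          cndAt G (H u) (t + 1) Y (putZ p t z) by
      rw [mul_sum]; exact sum_congr rfl fun z _ => by ring]
    field_simp

theorem E_one_eq (G : Grid L) (H : (Fin L → Z) → ℝ) (Y : (Fin L → Z) → ℝ) (p : Fin L → Z) :
    (Shape.one L).E G H (fun ξ => Y (ξ 0)) = cndAt G H 0 Y p := by
  have h : ∀ ξ : Fin 1 → Fin L → Z, ∀ i (c : Fin L), (c : ℕ) < 0 → ξ i c = p c :=
    fun _ _ _ hc => absurd hc (Nat.not_lt_zero _)
  rw [cndAt, Shape.Ec, Shape.E, filter_true_of_mem fun ξ _ => h ξ]
  congr 1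

theorem rootStmt : RootStmt := fun L Z _ _ _ G H Y ξ₀ u hH => by
  rw [E_one_eq G (H u) Y ξ₀]
  exact hasDerivAt_vAt G hH 0 ξ₀

/-- The weighted increments of the conditional expectations, regrouped by nodes. -/
theorem sum_incr_regroup (S : Shape L n) (G : Grid L) (i : Fin n) (c : ℕ → ℝ) :
    ∑ s ∈ Icc 1 L, G.m s * (c s - c (s - 1)) / S.sz s i
      = c L - ∑ t : Fin L, S.attW G i t * c t := by
  have h : ∀ M ≤ L, ∑ s ∈ Icc 1 M, G.m s * (c s - c (s - 1)) / S.sz s i
      = G.m M / S.sz M i * c M - ∑ t ∈ range M, S.attW G i t * c t := by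
    intro M hM
    induction M with
    | zero => simp [G.m_zero]
    | succ M ih =>
      rw [sum_Icc_succ_top (by omega), ih (by omega), sum_range_succ, Shape.attW,
        show M + 1 - 1 = M by omega]
      ring
  rw [h L le_rfl, G.m_last, sz_top, Fin.sum_univ_eq_sum_range (fun t => S.attW G i t * c t) L]
  simp

theorem ext_attached (S : Shape L n) (i : Fin n) {t : ℕ} (ht : t < L) :
    (S.ext i t ht).Attached Fin.castSuccEmb (Fin.last n) i t where
  cover := fun j hj => Fin.exists_castSucc_eq.2 hj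
  out := fun c => Fin.castSucc_ne_last c
  join := by
    show S.extJ i t (Fin.last n) i.castSucc = t
    simp [Shape.extJ, S.self, ht.le]
  top := fun c => by
    show S.extJ i t (Fin.last n) c.castSucc ≤ t
    simp [Shape.extJ]

theorem ext_comap (S : Shape L n) (i : Fin n) {t : ℕ} (ht : t < L) :
    (S.ext i t ht).comap Fin.castSuccEmb = S := by
  cases S
  simp [Shape.comap, Shape.ext, Shape.extJ]

theorem E_ext (S : Shape L n) (G : Grid L) (H : (Fin L → Z) → ℝ) (i : Fin n) {t : ℕ} (ht : t < L)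
    (φ : (Fin n → Fin L → Z) → ℝ) (ψ : (Fin L → Z) → ℝ) :
    (S.ext i t ht).E G H (fun ξ => φ (fun j => ξ j.castSucc) * ψ (ξ (Fin.last n)))
      = S.E G H fun ξ => φ ξ * cndAt G H t ψ (ξ i) := by
  have h := E_attach (ext_attached S i ht) G H φ ψ
  rw [ext_comap] at h
  exact h

theorem derivStmt : DerivStmt := by
  intro L n Z _ _ _ G H Y S φ φd u hH hφ
  have hinc : ∀ ξ s, HasDerivAt (fun v => incr G (H v) s ξ)
      (G.m s * (cndAt G (H u) s Y ξ - cndAt G (H u) (s - 1) Y ξ)) u := fun ξ s =>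
    ((hasDerivAt_vAt G hH s ξ).sub (hasDerivAt_vAt G hH (s - 1) ξ)).const_mul _
  have hdens : ∀ ξ : Fin n → Fin L → Z, HasDerivAt (fun v => S.dens G (H v) ξ)
      (S.dens G (H u) ξ * ∑ i, (Y (ξ i) - ∑ t : Fin L, S.attW G i t * cndAt G (H u) t Y (ξ i))) u := by
    intro ξ
    refine (HasDerivAt.fun_sum fun i _ => HasDerivAt.fun_sum fun s _ =>
      (hinc (ξ i) s).div_const _).exp.congr_deriv ?_
    unfold Shape.dens
    congr 1
    refine sum_congr rfl fun i _ => ?_
    rw [sum_incr_regroup S G i fun s => cndAt G (H u) s Y (ξ i), cndAt_top G _ le_rfl]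
  have hE : HasDerivAt (fun v => S.E G (H v) (φ v))
      ((∑ ξ ∈ S.consistent, (S.dens G (H u) ξ * (∑ i, (Y (ξ i) -
          ∑ t : Fin L, S.attW G i t * cndAt G (H u) t Y (ξ i))) * φ u ξ + S.dens G (H u) ξ * φd ξ))
        / (S.consistent (Z := Z)).card) u :=
    (HasDerivAt.fun_sum fun ξ _ => (hdens ξ).mul (hφ ξ)).div_const _
  refine hE.congr_deriv ?_
  have hX : ∀ (i : Fin n) (t : Fin L), (S.ext i t t.2).E G (H u)
      (fun ξ => φ u (fun j => ξ j.castSucc) * Y (ξ (Fin.last n))) =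
      (∑ ξ ∈ S.consistent, S.dens G (H u) ξ * (φ u ξ * cndAt G (H u) t Y (ξ i)))
        / (S.consistent (Z := Z)).card := fun i t => E_ext S G (H u) i t.2 (φ u) Y
  rw [sum_congr rfl fun i _ => congrArg _ (sum_congr rfl fun t _ => congrArg _ (hX i t))]
  simp only [Shape.E, mul_div_assoc', ← sum_div, ← sub_div, ← add_div]
  congr 1
  simp only [sum_add_distrib, mul_sub, sub_mul, mul_sum, sum_mul, sum_sub_distrib]
  rw [add_comm]
  congr 1
  rw [sum_comm]
  congr 1
  · exact sum_congr rfl fun i _ => sum_congr rfl fun ξ _ => by ring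
  · rw [sum_comm]
    refine sum_congr rfl fun i _ => ?_
    rw [sum_comm]
    exact sum_congr rfl fun t _ => sum_congr rfl fun ξ _ => by ring

end Vale.Agent.P168
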