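import Vale.Agent.P168.Tree.Deriv

/-!
# P168: the slope of the energy and its thermal variance
-/

open Real Finset

namespace Vale.Agent.P168

variable {L n : ℕ} {Z : Type} [Fintype Z] [DecidableEq Z] [Nonempty Z]

theorem cndAt_mul_const (G : Grid L) (H : (Fin L → Z) → ℝ) {t : ℕ} {g ψ : (Fin L → Z) → ℝ} {p : Fin L → Z}
    (hg : ∀ q ∈ fib t p, g q = g p) :
    cndAt G H t (fun q => g q * ψ q) p = g p * cndAt G H t ψ p := by
  rw [cndAt_eq, cndAt_eq, mul_div_assoc', mul_sum]
  congr 1
  exact sum_congr rfl fun q hq => by rw [hg q hq]; ring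

theorem cndAt_mono (G : Grid L) (H : (Fin L → Z) → ℝ) (t : ℕ) {φ ψ : (Fin L → Z) → ℝ}
    (h : ∀ q, φ q ≤ ψ q) (p : Fin L → Z) : cndAt G H t φ p ≤ cndAt G H t ψ p := by
  rw [cndAt_eq, cndAt_eq]
  exact div_le_div_of_nonneg_right
    (sum_le_sum fun q _ => mul_le_mul_of_nonneg_left (h q) (exp_pos _).le) (Nat.cast_nonneg _)

/-- The tower property. -/
theorem cndAt_tower (G : Grid L) (H : (Fin L → Z) → ℝ) {t s : ℕ} (hts : t ≤ s) (g ψ : (Fin L → Z) → ℝ)
    (hg : ∀ p p', (∀ c : Fin L, (c : ℕ) < s → p c = p' c) → g p = g p') (p : Fin L → Z) :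
    cndAt G H t (fun q => g q * cndAt G H s ψ q) p = cndAt G H t (fun q => g q * ψ q) p := by
  induction hd : s - t generalizing t p with
  | zero =>
    obtain rfl : t = s := by omega
    have hgc : ∀ q ∈ fib t p, g q = g p := fun q hq => hg q p (mem_fib.1 hq)
    rw [cndAt_mul_const G H hgc, cndAt_mul_const G H hgc]
    congr 1
    have h1 := cndAt_mul_const G H (t := t) (g := cndAt G H t ψ) (ψ := fun _ => 1) (p := p)
      fun q hq => cndAt_congr G H t ψ (mem_fib.1 hq)
    simpa [cndAt_one] using h1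
  | succ d ih =>
    by_cases ht : t < L
    · rw [cndAt_step G H ht, cndAt_step G H ht]
      congr 1
      exact sum_congr rfl fun z _ => by rw [ih (by omega) _ (by omega)]
    · simp only [cndAt_top G H (show L ≤ t by omega), cndAt_top G H (show L ≤ s by omega)]

theorem cndAt_sq_le (G : Grid L) (H : (Fin L → Z) → ℝ) {t : ℕ} (ht : t < L) (Y : (Fin L → Z) → ℝ)
    (p : Fin L → Z) :
    cndAt G H t Y p ^ 2 ≤ cndAt G H t (fun q => cndAt G H (t + 1) Y q ^ 2) p := by
  have hz : (0 : ℝ) < Fintype.card Z := Nat.cast_pos.2 Fintype.card_pos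
  rw [cndAt_step G H ht, cndAt_step G H ht]
  have hin : ∀ q, cndAt G H (t + 1) (fun q' => cndAt G H (t + 1) Y q' ^ 2) q
      = cndAt G H (t + 1) Y q ^ 2 := fun q => by
    have h1 := cndAt_mul_const G H (t := t + 1) (g := fun q' => cndAt G H (t + 1) Y q' ^ 2)
      (ψ := fun _ => 1) (p := q) fun r hr => by
        simp only [cndAt_congr G H (t + 1) Y (mem_fib.1 hr)]
    simpa [cndAt_one] using h1
  simp only [hin]
  set w := fun z => exp (incr G H (t + 1) (putZ p t z))
  set x := fun z => cndAt G H (t + 1) Y (putZ p t z)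
  show ((∑ z, w z * x z) / Fintype.card Z) ^ 2 ≤ (∑ z, w z * x z ^ 2) / Fintype.card Z
  have h := sum_sq_le_sum_mul_sum_of_sq_le_mul univ (r := fun z => w z * x z) (f := w)
    (g := fun z => w z * x z ^ 2) (fun z _ => (exp_pos _).le) (fun z _ => by positivity)
    (fun z _ => le_of_eq (by ring))
  rw [show ∑ z, w z = Fintype.card Z from sum_exp_incr G H ht p] at h
  rw [div_pow, div_le_div_iff₀ (by positivity) hz]
  nlinarith [h]

theorem varStmt : VarStmt := by
  intro L Z _ _ _ G H Y hL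
  set p : Fin L → Z := Classical.arbitrary _
  set B : ℕ → ℝ := fun t => cndAt G H 0 (fun q => cndAt G H t Y q ^ 2) p with hB
  have h2 : (Shape.one L).E G H (fun ξ => Y (ξ 0) ^ 2) = B L := by
    rw [E_one_eq G H (fun q => Y q ^ 2) p]
    simp only [hB, cndAt_top G H le_rfl]
  have h1 : (Shape.one L).E G H (fun ξ => Y (ξ 0)) ^ 2 = B 0 := by
    rw [E_one_eq G H Y p]
    have h := cndAt_mul_const G H (t := 0) (g := fun q => cndAt G H 0 Y q ^ 2) (ψ := fun _ => 1) (p := p)
      fun r hr => by simp only [cndAt_congr G H 0 Y (mem_fib.1 hr)]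
    simpa [hB, cndAt_one] using h.symm
  have h3 : ∀ t : Fin L, ((Shape.one L).ext 0 t t.2).E G H (fun ξ => Y (ξ 0) * Y (ξ 1)) = B t := by
    intro t
    have h := E_ext (Shape.one L) G H 0 t.2 (fun η => Y (η 0)) Y
    rw [E_one_eq G H (fun q => Y q * cndAt G H t Y q) p] at h
    refine h.trans ?_
    rw [show (fun q => Y q * cndAt G H t Y q) = fun q => cndAt G H t Y q * Y q from
      funext fun q => mul_comm _ _, ← cndAt_tower G H (Nat.zero_le _) (fun q => cndAt G H t Y q) Y
      (fun q q' hq => cndAt_congr G H t Y hq) p]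
    simp only [hB, sq]
  have hW : ∀ t : Fin L, (Shape.one L).attW G 0 t = G.m (t + 1) - G.m t := fun t => by
    rw [Shape.attW, sz_one t.2, sz_one t.2.le, Nat.cast_one, div_one, div_one]
  have hmono : ∀ t, t < L → B t ≤ B (t + 1) := fun t ht => by
    refine (cndAt_mono G H 0 (fun q => cndAt_sq_le G H ht Y q) p).trans (le_of_eq ?_)
    have h := cndAt_tower G H (t := 0) (s := t) (Nat.zero_le _) (fun _ => 1)
      (fun q => cndAt G H (t + 1) Y q ^ 2) (fun _ _ _ => rfl) p
    simpa [hB] using h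
  have hm1 : ∀ t, t < L → G.m 1 ≤ G.m (t + 1) := by
    intro t ht
    induction t with
    | zero => exact le_rfl
    | succ t ih => exact (ih (by omega)).trans (G.m_mono _ ht)
  rw [h1, h2, sum_congr rfl fun t _ => by rw [h3 t, hW t],
    Fin.sum_univ_eq_sum_range (fun t => (G.m (t + 1) - G.m t) * B t) L]
  have key : ∀ M ≤ L, G.m 1 * (B M - B 0) ≤ G.m M * B M - ∑ t ∈ range M, (G.m (t + 1) - G.m t) * B t := by
    intro M hM
    induction M with
    | zero => simp [G.m_zero]
    | succ M ih =>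
      rw [sum_range_succ]
      nlinarith [ih (by omega), mul_le_mul_of_nonneg_right (hm1 M hM) (sub_nonneg.2 (hmono M hM))]
  simpa [G.m_last] using key L le_rfl

end Vale.Agent.P168
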