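import Vale.Agent.P168.Tree.Place

/-!
# P168: signed totals of placements, and derivatives as placements
-/

open Real Finset

namespace Vale.Agent.P168

variable {L b : ℕ}

/-- Append a row to a symmetric table of joins. -/
def addRow (L : ℕ) (M : List (List ℕ)) (row : List ℕ) : List (List ℕ) :=
  List.zipWith (fun r x => r ++ [x]) M row ++ [row ++ [L]]

/-- One signed step, seen from the table of joins alone. -/
noncomputable def stepJ (G : Grid L) (ψ : List (List ℕ) → ℝ) (M : List (List ℕ)) : ℝ :=
  (M.map fun r => -ψ (addRow L M (r.map (min L))) + ∑ t : Fin L,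
    G.m (t + 1) / (r.countP fun x => decide ((t : ℕ) + 1 ≤ x)) *
      (ψ (addRow L M (r.map (min ((t : ℕ) + 1)))) - ψ (addRow L M (r.map (min (t : ℕ)))))).sum

theorem joins_hit (P : Pos L b) (l : Fin P.n) :
    (P.hit l).joins = addRow L P.joins (P.col.map fun c => min L (P.S.J l c)) := by
  simp only [Pos.joins, Pos.hit, addRow, List.map_append, List.map_cons, List.map_nil,
    List.zipWith_map, List.zipWith_self, P.S.self]
  congr 1
  · exact List.map_congr_left fun c _ => by rw [min_eq_right (le_top _ _ _), P.S.symm]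
  · congr 2
    exact List.map_congr_left fun c _ => (min_eq_right (le_top _ _ _)).symm

theorem joins_new (P : Pos L b) (i : Fin P.n) (t : Fin L) :
    (P.new i t).joins = addRow L P.joins (P.col.map fun c => min (t : ℕ) (P.S.J i c)) := by
  simp [Pos.joins, Pos.new, addRow, Shape.ext, Shape.extJ, List.zipWith_map, List.zipWith_self,
    Function.comp_def]

theorem nodup_hit (P : Pos L b) (h : P.col.Nodup) {l : Fin P.n} (hl : l ∉ P.col) :
    (P.hit l).col.Nodup := by
  simp only [Pos.hit, List.nodup_append]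
  exact ⟨h, List.nodup_singleton l, fun a ha c hc => by
    rw [List.mem_singleton] at hc; exact fun e => hl (hc ▸ e ▸ ha)⟩

theorem nodup_new (P : Pos L b) (h : P.col.Nodup) (i : Fin P.n) (t : Fin L) :
    (P.new i t).col.Nodup := by
  simp only [Pos.new, List.nodup_append]
  refine ⟨h.map (Fin.castSucc_injective _), List.nodup_singleton _, fun a ha c hc => ?_⟩
  obtain ⟨x, -, rfl⟩ := List.mem_map.1 ha
  rw [List.mem_singleton] at hc
  exact hc ▸ (Fin.castSucc_lt_last x).ne

theorem step_congr (G : Grid L) (P : Pos L b) {Φ Ψ : Pos L b → ℝ}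
    (h₁ : ∀ l, l ∉ P.col → Φ (P.hit l) = Ψ (P.hit l)) (h₂ : ∀ i t, Φ (P.new i t) = Ψ (P.new i t)) :
    P.step G Φ = P.step G Ψ := by
  unfold Pos.step
  congr 1
  · exact sum_congr rfl fun l hl => h₁ l (mem_filter.1 hl).2
  · exact sum_congr rfl fun i _ => sum_congr rfl fun t _ => by rw [h₂]

/-- The signed step of a function of the joins depends on the joins of the colours alone. -/
theorem step_joins (G : Grid L) (P : Pos L b) (hnd : P.col.Nodup) (ψ : List (List ℕ) → ℝ) :
    P.step G (fun Q => ψ Q.joins) = stepJ G ψ P.joins := by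
  classical
  set g : List ℕ → ℝ := fun row => ψ (addRow L P.joins row) with hg
  set h : Fin P.n → ℕ → ℝ := fun i t => g (P.col.map fun c => min t (P.S.J i c)) with hh
  set C := P.col.toFinset with hC
  set k : ℕ → Fin P.n → ℕ := fun t i => (C.filter fun c => t ≤ P.S.J i c).card with hk
  -- Abel summation on each replica
  have abel : ∀ i, ∑ t : Fin L, P.S.attW G i t * h i t
      = h i L - ∑ t : Fin L, G.m (t + 1) / P.S.sz (t + 1) i * (h i (t + 1) - h i t) := by
    intro i
    rw [eq_sub_iff_add_eq, ← sum_add_distrib, Fin.sum_univ_eq_sum_range (fun t =>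
      P.S.attW G i t * h i t + G.m (t + 1) / P.S.sz (t + 1) i * (h i (t + 1) - h i t))]
    have := sum_range_sub (fun t => G.m t / P.S.sz t i * h i t) L
    rw [G.m_zero, G.m_last, sz_top, zero_div, zero_mul, sub_zero, Nat.cast_one, div_one, one_mul] at this
    exact (sum_congr rfl fun t _ => by rw [Shape.attW]; ring).trans this
  -- only nodes with a colour count
  have node : ∀ t, t < L → ∑ i, G.m (t + 1) / P.S.sz (t + 1) i * (h i (t + 1) - h i t)
      = ∑ c ∈ C, G.m (t + 1) / k (t + 1) c * (h c (t + 1) - h c t) := by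
    intro t ht
    have hconst : ∀ i c, t + 1 ≤ P.S.J i c → h i (t + 1) = h c (t + 1) ∧ h i t = h c t ∧
        k (t + 1) i = k (t + 1) c ∧ P.S.sz (t + 1) i = P.S.sz (t + 1) c := by
      intro i c hic
      have e : ∀ s, s ≤ t + 1 → ∀ d, min s (P.S.J i d) = min s (P.S.J c d) := fun s hs d => by
        have := P.S.ultra i c d; have := P.S.ultra c i d; have := P.S.symm i c
        omega
      refine ⟨?_, ?_, ?_, by rw [Shape.sz, Shape.sz, cls_eq _ hic]⟩
      · simp only [hh]; exact congrArg g (List.map_congr_left fun d _ => e _ le_rfl d)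
      · simp only [hh]; exact congrArg g (List.map_congr_left fun d _ => e _ t.le_succ d)
      · simp only [hk]
        congr 1
        exact filter_congr fun d _ => by have := e _ le_rfl d; omega
    calc ∑ i, G.m (t + 1) / P.S.sz (t + 1) i * (h i (t + 1) - h i t)
        = ∑ i, ∑ c ∈ C.filter (fun c => t + 1 ≤ P.S.J i c),
            G.m (t + 1) / k (t + 1) c * (h c (t + 1) - h c t) / P.S.sz (t + 1) c := by
          refine sum_congr rfl fun i _ => ?_
          rcases (C.filter fun c => t + 1 ≤ P.S.J i c).eq_empty_or_nonempty with he | hne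
          · rw [he, sum_empty]
            have : h i (t + 1) = h i t := by
              simp only [hh]
              refine congrArg g (List.map_congr_left fun c hc => ?_)
              have := filter_eq_empty_iff.1 he (List.mem_toFinset.2 hc)
              omega
            rw [this, sub_self, mul_zero]
          · rw [sum_congr rfl (g := fun _ =>
                G.m (t + 1) / k (t + 1) i * (h i (t + 1) - h i t) / P.S.sz (t + 1) i) fun c hc => by
              obtain ⟨a1, a2, a3, a4⟩ := hconst i c (mem_filter.1 hc).2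
              rw [a1, a2, a3, a4]]
            rw [sum_const, nsmul_eq_mul]
            have hk0 : (k (t + 1) i : ℝ) ≠ 0 := Nat.cast_ne_zero.2 (card_pos.2 hne).ne'
            show _ = (k (t + 1) i : ℝ) * _
            field_simp
      _ = ∑ c ∈ C, ∑ i ∈ P.S.cls (t + 1) c,
            G.m (t + 1) / k (t + 1) c * (h c (t + 1) - h c t) / P.S.sz (t + 1) c :=
          sum_comm' fun i c => by simp [mem_cls, P.S.symm c i, and_comm]
      _ = _ := by
          refine sum_congr rfl fun c _ => ?_
          rw [sum_const, nsmul_eq_mul]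
          have h0 : ((P.S.cls (t + 1) c).card : ℝ) ≠ 0 :=
            Nat.cast_ne_zero.2 (sz_pos P.S ht c).ne'
          show _ * (_ / ((P.S.cls (t + 1) c).card : ℝ)) = _
          field_simp
  have main : P.step G (fun Q => ψ Q.joins)
      = ∑ c ∈ C, (-h c L + ∑ t : Fin L, G.m (t + 1) / k (t + 1) c * (h c (t + 1) - h c t)) := by
    unfold Pos.step
    simp only [joins_hit, joins_new]
    show ∑ l ∈ univ.filter (fun l => l ∉ P.col), h l L - ∑ i, ∑ t : Fin L, P.S.attW G i t * h i t = _
    rw [sum_congr rfl fun i _ => abel i, sum_sub_distrib, sum_comm,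
      sum_congr rfl fun (t : Fin L) _ => node t t.2, sum_add_distrib,
      ← sum_comm (s := (univ : Finset (Fin L))), sum_neg_distrib]
    have hs := sum_filter_add_sum_filter_not univ (fun l => l ∉ P.col) fun l => h l L
    have hC' : univ.filter (fun l => ¬ l ∉ P.col) = C := by ext; simp [hC]
    rw [hC'] at hs
    linarith
  rw [main, stepJ, hC, List.sum_toFinset _ hnd]
  congr 1
  simp only [Pos.joins, List.map_map]
  refine List.map_congr_left fun c _ => ?_
  simp only [Function.comp_def, List.map_map]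
  have hcount : ∀ s, k s c = ((P.col.map fun y => P.S.J c y).countP fun x => decide (s ≤ x)) := by
    intro s
    simp only [hk, hC]
    rw [List.countP_map, List.countP_eq_length_filter, ← List.toFinset_card_of_nodup (hnd.filter _),
      List.toFinset_filter]
    simp
  simp only [hh, hg, hcount, Pos.joins]

theorem invStmt : InvStmt := by
  intro L b b' G q P P' κ h h' hj
  have key : ∀ q, ∃ Ψ : List (List ℕ) → ℝ, ∀ (c : ℕ) (Q : Pos L c), Q.col.Nodup →
      Q.place G q (fun Q => κ Q.joins) = Ψ Q.joins := by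
    intro q
    induction q with
    | zero => exact ⟨κ, fun c Q _ => rfl⟩
    | succ q ih =>
      obtain ⟨Ψ, hΨ⟩ := ih
      refine ⟨stepJ G Ψ, fun c Q hQ => ?_⟩
      rw [Pos.place, ← step_joins G Q hQ]
      exact step_congr G Q (fun l hl => hΨ c _ (nodup_hit Q hQ hl))
        fun i t => hΨ c _ (nodup_new Q hQ i t)
  obtain ⟨Ψ, hΨ⟩ := key q
  rw [hΨ b P h, hΨ b' P' h', hj]

theorem step_abs_le (G : Grid L) (P : Pos L b) (Φ : Pos L b → ℝ) (A : ℝ)
    (h₁ : ∀ l, |Φ (P.hit l)| ≤ A) (h₂ : ∀ i t, |Φ (P.new i t)| ≤ A) (hA : 0 ≤ A) :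
    |P.step G Φ| ≤ 2 * P.n * A := by
  have e1 : |∑ l ∈ univ.filter (fun l => l ∉ P.col), Φ (P.hit l)| ≤ P.n * A := by
    refine (abs_sum_le_sum_abs _ _).trans ((sum_le_card_nsmul _ _ A fun l _ => h₁ l).trans ?_)
    rw [nsmul_eq_mul]
    gcongr
    simpa using card_le_univ (univ.filter fun l => l ∉ P.col)
  have e2 : |∑ i, ∑ t : Fin L, P.S.attW G i t * Φ (P.new i t)| ≤ P.n * A := by
    refine (abs_sum_le_sum_abs _ _).trans ?_
    refine (sum_le_card_nsmul _ _ A fun i _ => ?_).trans (le_of_eq (by simp))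
    have hw : ∑ t : Fin L, P.S.attW G i t = 1 := by
      rw [Fin.sum_univ_eq_sum_range (fun t => P.S.attW G i t), range_eq_Ico,
        sum_attW _ _ (Nat.zero_le L), G.m_zero, zero_div, sub_zero]
    calc |∑ t : Fin L, P.S.attW G i t * Φ (P.new i t)|
        ≤ ∑ t : Fin L, P.S.attW G i t * A :=
          (abs_sum_le_sum_abs _ _).trans (sum_le_sum fun t _ => by
            rw [abs_mul, abs_of_nonneg (attW_nonneg _ _ t.2 i)]
            exact mul_le_mul_of_nonneg_left (h₂ i t) (attW_nonneg _ _ t.2 i))
      _ = A := by rw [← sum_mul, hw, one_mul]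
  calc |P.step G Φ| ≤ _ + _ := abs_sub _ _
    _ ≤ P.n * A + P.n * A := add_le_add e1 e2
    _ = _ := by ring

theorem placeBoundStmt : PlaceBoundStmt := by
  intro L b G q
  induction q with
  | zero => intro P Φ A _ h; simpa [Pos.place] using h P
  | succ q ih =>
    intro P Φ A hA h
    rw [Pos.place]
    set B := (2 * ((P.n : ℝ) + (q + 1))) ^ q * A
    have hB : 0 ≤ B := by positivity
    have hb : ∀ Q : Pos L b, Q.n ≤ P.n + 1 → |Q.place G q Φ| ≤ B := fun Q hQ => by
      refine (ih Q Φ A hA h).trans ?_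
      have : (Q.n : ℝ) ≤ P.n + 1 := by exact_mod_cast hQ
      simp only [B]
      gcongr ?_ * A
      exact pow_le_pow_left₀ (by positivity) (by linarith) q
    refine (step_abs_le G P _ B (fun l => hb (P.hit l) (Nat.le_succ P.n))
      (fun i t => hb (P.new i t) le_rfl) hB).trans ?_
    simp only [B, pow_succ]
    push_cast
    have h0 : 0 ≤ (2 * ((P.n : ℝ) + (q + 1))) ^ q * A := by positivity
    nlinarith [mul_nonneg h0 (show (0 : ℝ) ≤ (q : ℝ) + 1 by positivity)]

/-- The derivative of one factor. -/
theorem hasDerivAt_factor (z x u : ℝ) (h : 1 + u * x ≠ 0) :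
    HasDerivAt (fun v => z / (1 + v * x)) (-(z / (1 + u * x)) * (x / (1 + u * x))) u := by
  have h1 := (((hasDerivAt_id u).mul_const x).const_add 1).fun_inv h
  have h2 := h1.const_mul z
  simp only [id_eq, one_mul, ← div_eq_mul_inv] at h2
  refine h2.congr_deriv ?_
  field_simp

/-- The derivative of a colour product. -/
theorem hasDerivAt_colProd {Z : Type} [Fintype Z] [DecidableEq Z] [Nonempty Z]
    (X Z₀ : (Fin L → Z) → ℝ) {n : ℕ} (ξ : Fin n → Fin L → Z) (u : ℝ) (h : ∀ η, 1 + u * X η ≠ 0) :
    ∀ col : List (Fin n), HasDerivAt (fun v => colProd X Z₀ v col ξ)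
      (-(col.map fun c => X (ξ c) / (1 + u * X (ξ c))).sum * colProd X Z₀ u col ξ) u
  | [] => by simpa [colProd] using hasDerivAt_const u (1 : ℝ)
  | r :: rest => by
    have hrest : ∀ l : List (Fin n), HasDerivAt
        (fun v => (l.map fun c => X (ξ c) / (1 + v * X (ξ c))).prod)
        (-(l.map fun c => X (ξ c) / (1 + u * X (ξ c))).sum *
          (l.map fun c => X (ξ c) / (1 + u * X (ξ c))).prod) u := by
      intro l
      induction l with
      | nil => simpa using hasDerivAt_const u (1 : ℝ)
      | cons a l ih =>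
        simp only [List.map_cons, List.prod_cons, List.sum_cons]
        exact ((hasDerivAt_factor _ _ u (h (ξ a))).mul ih).congr_deriv (by ring)
    simp only [colProd, List.map_cons, List.sum_cons]
    exact ((hasDerivAt_factor _ _ u (h (ξ r))).mul (hrest rest)).congr_deriv (by ring)

theorem colProd_append {Z : Type} [Fintype Z] [DecidableEq Z] [Nonempty Z]
    (X Z₀ : (Fin L → Z) → ℝ) (u : ℝ) {n : ℕ} (col : List (Fin n)) (l : Fin n) (hne : col ≠ [])
    (ξ : Fin n → Fin L → Z) :
    colProd X Z₀ u (col ++ [l]) ξ = colProd X Z₀ u col ξ * (X (ξ l) / (1 + u * X (ξ l))) := by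
  cases col with
  | nil => exact absurd rfl hne
  | cons r rest => simp [colProd, mul_assoc]

theorem colProd_map {Z : Type} [Fintype Z] [DecidableEq Z] [Nonempty Z]
    (X Z₀ : (Fin L → Z) → ℝ) (u : ℝ) {n n' : ℕ} (col : List (Fin n)) (e : Fin n → Fin n')
    (ξ : Fin n' → Fin L → Z) :
    colProd X Z₀ u (col.map e) ξ = colProd X Z₀ u col fun c => ξ (e c) := by
  cases col <;> simp [colProd, Function.comp_def]

theorem derivPlaceStmt (hd : DerivStmt) : DerivPlaceStmt := by
  intro L b Z _ _ _ G H X Z₀ φ P u hne hnd hpos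
  classical
  set F : ℝ → (Fin P.n → Fin L → Z) → ℝ :=
    fun v ξ => φ (fun c => ξ (P.base c)) * colProd X Z₀ v P.col ξ with hF
  set Y : (Fin L → Z) → ℝ := fun ξ => X ξ / (1 + u * X ξ) with hY
  have key := hd L P.n Z G (fun v ξ => H ξ + log (1 + v * X ξ)) Y P.S F
    (fun ξ => -(P.col.map fun c => Y (ξ c)).sum * F u ξ) u
    (fun ξ => by
      have := (((((hasDerivAt_id u).mul_const (X ξ)).const_add 1)).log (hpos ξ).ne').const_add (H ξ)
      simpa [hY] using this)
    (fun ξ => by
      have := (hasDerivAt_colProd X Z₀ ξ u (fun η => (hpos η).ne') P.col).const_mul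
        (φ fun c => ξ (P.base c))
      exact this.congr_deriv (by simp only [hF, hY]; ring))
  refine key.congr_deriv ?_
  set H' : (Fin L → Z) → ℝ := fun ξ => H ξ + log (1 + u * X ξ)
  have hlin : P.S.E G H' (fun ξ => -(P.col.map fun c => Y (ξ c)).sum * F u ξ)
      = -∑ c ∈ P.col.toFinset, P.S.E G H' fun ξ => F u ξ * Y (ξ c) := by
    simp only [Shape.E, ← sum_div, ← neg_div]
    congr 1
    rw [sum_comm, ← sum_neg_distrib]
    refine sum_congr rfl fun ξ _ => ?_
    rw [← List.sum_toFinset _ hnd, ← mul_sum, ← mul_sum]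
    ring
  rw [hlin, sum_sub_distrib]
  unfold Pos.step
  have hh : ∀ l, (P.hit l).val G H X Z₀ φ u = P.S.E G H' fun ξ => F u ξ * Y (ξ l) := by
    intro l
    simp only [Pos.val, Pos.hit, hF, hY]
    congr 1
    funext ξ
    rw [colProd_append X Z₀ u _ _ hne]
    ring
  have hn : ∀ i (t : Fin L), (P.new i t).val G H X Z₀ φ u
      = (P.S.ext i t t.2).E G H' fun ξ => F u (fun j => ξ j.castSucc) * Y (ξ (Fin.last P.n)) := by
    intro i t
    simp only [Pos.val, Pos.new, hF, hY]
    congr 1
    funext ξ
    rw [colProd_append X Z₀ u _ _ (by simpa using hne), colProd_map]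
    ring
  simp only [hh, hn]
  have hs := sum_filter_add_sum_filter_not univ (fun l => l ∉ P.col)
    fun l => P.S.E G H' fun ξ => F u ξ * Y (ξ l)
  have hC' : univ.filter (fun l => ¬ l ∉ P.col) = P.col.toFinset := by ext; simp
  rw [hC'] at hs
  linarith

end Vale.Agent.P168
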