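import Vale.Agent.P168.Defs

/-!
# P168: finite trees of replicas

A system has `L` levels with labels in a finite type `Z`; a leaf is a path `Fin L → Z` and carries the
potential `H`.  A node of level `t` is given by the first `t` coordinates of a path.
-/

open Real Finset

namespace Vale.Agent.P168

/-- Parameters `0 = m 0 < m 1 ≤ ... ≤ m L = 1`. -/
structure Grid (L : ℕ) where
  /-- the parameters -/
  m : ℕ → ℝ
  m_zero : m 0 = 0
  m_last : m L = 1
  m_pos : ∀ t, 1 ≤ t → t ≤ L → 0 < m t
  m_mono : ∀ t < L, m t ≤ m (t + 1)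

/-- Join levels of `n` distinct replicas in a tree with `L` levels. -/
structure Shape (L n : ℕ) where
  /-- the join level -/
  J : Fin n → Fin n → ℕ
  self : ∀ i, J i i = L
  ne : ∀ i j, i ≠ j → J i j < L
  symm : ∀ i j, J i j = J j i
  ultra : ∀ i j l, min (J i j) (J j l) ≤ J i l

variable {L n : ℕ} {Z : Type} [Fintype Z] [DecidableEq Z] [Nonempty Z]

/-- The replicas in the node of `i` at level `t`. -/
def Shape.cls (S : Shape L n) (t : ℕ) (i : Fin n) : Finset (Fin n) :=
  univ.filter fun j => t ≤ S.J i j

/-- The number of replicas in the node of `i` at level `t`. -/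
def Shape.sz (S : Shape L n) (t : ℕ) (i : Fin n) : ℕ := (S.cls t i).card

/-- The weight of creating a new child of the node of `i` at level `t`, one share per member. -/
noncomputable def Shape.attW (S : Shape L n) (G : Grid L) (i : Fin n) (t : ℕ) : ℝ :=
  G.m (t + 1) / S.sz (t + 1) i - G.m t / S.sz t i

/-- The join levels after a new replica is put in a new child of the node of `i` at level `t`. -/
def Shape.extJ (S : Shape L n) (i : Fin n) (t : ℕ) : Fin (n + 1) → Fin (n + 1) → ℕ :=
  Fin.snoc (fun a => Fin.snoc (fun b => S.J a b) (min t (S.J i a)))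
    (Fin.snoc (fun b => min t (S.J i b)) L)

/-- The shape of one replica. -/
def Shape.one (L : ℕ) : Shape L 1 where
  J := fun _ _ => L
  self := fun _ => rfl
  ne := fun i j h => absurd (Subsingleton.elim i j) h
  symm := fun _ _ => rfl
  ultra := fun _ _ _ => le_of_eq (min_self L)

/-- Replace one coordinate of a path. -/
def putZ (ξ : Fin L → Z) (s : ℕ) (z : Z) : Fin L → Z := fun a => if (a : ℕ) = s then z else ξ a

/-- The values, `d` levels above the leaves. -/
noncomputable def vRec (G : Grid L) (H : (Fin L → Z) → ℝ) : ℕ → (Fin L → Z) → ℝ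
  | 0, ξ => H ξ
  | d + 1, ξ =>
    log (mean fun z => exp (G.m (L - d) * vRec G H d (putZ ξ (L - d - 1) z))) / G.m (L - d)

/-- The value at level `t`. -/
noncomputable def vAt (G : Grid L) (H : (Fin L → Z) → ℝ) (t : ℕ) : (Fin L → Z) → ℝ :=
  vRec G H (L - t)

/-- The exponent of one replica at level `t`. -/
noncomputable def incr (G : Grid L) (H : (Fin L → Z) → ℝ) (t : ℕ) (ξ : Fin L → Z) : ℝ :=
  G.m t * (vAt G H t ξ - vAt G H (t - 1) ξ)

/-- Arrays of paths with the given joins. -/
def Shape.consistent (S : Shape L n) : Finset (Fin n → Fin L → Z) :=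
  univ.filter fun ξ => ∀ i j (a : Fin L), (a : ℕ) < S.J i j → ξ i a = ξ j a

/-- The density of an array of paths. -/
noncomputable def Shape.dens (S : Shape L n) (G : Grid L) (H : (Fin L → Z) → ℝ)
    (ξ : Fin n → Fin L → Z) : ℝ :=
  exp (∑ i, ∑ t ∈ Icc 1 L, incr G H t (ξ i) / S.sz t i)

/-- The expectation over replicas of a given shape. -/
noncomputable def Shape.E (S : Shape L n) (G : Grid L) (H : (Fin L → Z) → ℝ)
    (φ : (Fin n → Fin L → Z) → ℝ) : ℝ :=
  (∑ ξ ∈ S.consistent, S.dens G H ξ * φ ξ) / (S.consistent (Z := Z)).card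

theorem mem_cls (S : Shape L n) {t : ℕ} {i j : Fin n} : j ∈ S.cls t i ↔ t ≤ S.J i j := by
  simp [Shape.cls]

theorem le_top (S : Shape L n) (i j : Fin n) : S.J i j ≤ L := by
  rcases eq_or_ne i j with h | h
  · subst h; exact (S.self i).le
  · exact (S.ne i j h).le

theorem cls_eq (S : Shape L n) {t : ℕ} {i j : Fin n} (h : t ≤ S.J i j) : S.cls t i = S.cls t j := by
  ext l
  simp only [mem_cls]
  constructor <;> intro hl
  · exact (le_min (S.symm i j ▸ h) hl).trans (S.ultra j i l)
  · exact (le_min h hl).trans (S.ultra i j l)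

theorem self_mem_cls (S : Shape L n) {t : ℕ} (ht : t ≤ L) (i : Fin n) : i ∈ S.cls t i := by
  rw [mem_cls, S.self]; exact ht

theorem sz_pos (S : Shape L n) {t : ℕ} (ht : t ≤ L) (i : Fin n) : 0 < S.sz t i :=
  card_pos.2 ⟨i, self_mem_cls S ht i⟩

theorem sz_top (S : Shape L n) (i : Fin n) : S.sz L i = 1 := by
  rw [Shape.sz, card_eq_one]
  refine ⟨i, ?_⟩
  ext j
  simp only [mem_cls, mem_singleton]
  refine ⟨fun h => ?_, fun h => by subst h; exact (S.self j).ge⟩
  by_contra hne
  exact absurd h (S.ne i j (Ne.symm hne)).not_ge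

theorem sz_anti (S : Shape L n) {s t : ℕ} (hst : s ≤ t) (i : Fin n) : S.sz t i ≤ S.sz s i :=
  card_le_card fun j hj => mem_cls S |>.2 (hst.trans ((mem_cls S).1 hj))

theorem attW_nonneg (S : Shape L n) (G : Grid L) {t : ℕ} (ht : t < L) (i : Fin n) :
    0 ≤ S.attW G i t := by
  rw [Shape.attW, sub_nonneg]
  have h1 : (0 : ℝ) < S.sz (t + 1) i := Nat.cast_pos.2 (sz_pos S ht i)
  have h2 : ((S.sz (t + 1) i : ℝ)) ≤ S.sz t i := Nat.cast_le.2 (sz_anti S t.le_succ i)
  have h0 : 0 ≤ G.m t := by
    rcases Nat.eq_zero_or_pos t with h | h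
    · rw [h, G.m_zero]
    · exact (G.m_pos t h ht.le).le
  calc G.m t / S.sz t i ≤ G.m t / S.sz (t + 1) i := div_le_div_of_nonneg_left h0 h1 h2
    _ ≤ G.m (t + 1) / S.sz (t + 1) i := div_le_div_of_nonneg_right (G.m_mono t ht) h1.le

theorem sum_attW (S : Shape L n) (G : Grid L) {s : ℕ} (hs : s ≤ L) (i : Fin n) :
    ∑ t ∈ Ico s L, S.attW G i t = 1 - G.m s / S.sz s i := by
  unfold Shape.attW
  rw [sum_Ico_eq_sum_range]
  have h := sum_range_sub (fun a => G.m (s + a) / S.sz (s + a) i) (L - s)
  simp only [← add_assoc] at h ⊢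
  rw [h, Nat.add_sub_cancel' hs, G.m_last, sz_top, Nat.add_zero, Nat.cast_one, div_one]

/-- One colour into a node: the hits minus the new places total `m t`. -/
theorem node_total (S : Shape L n) (G : Grid L) {t : ℕ} (ht : t ≤ L) (i : Fin n) :
    (S.sz t i : ℝ) - ∑ j ∈ S.cls t i, ∑ s ∈ Ico t L, S.attW G j s = G.m t := by
  have h : ∀ j ∈ S.cls t i, ∑ s ∈ Ico t L, S.attW G j s = 1 - G.m t / S.sz t i := fun _ hj => by
    rw [sum_attW S G ht, Shape.sz, Shape.sz, cls_eq S ((mem_cls S).1 hj)]
  have hp : (0 : ℝ) < S.sz t i := Nat.cast_pos.2 (sz_pos S ht i)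
  rw [sum_congr rfl h, sum_const, nsmul_eq_mul, show ((S.cls t i).card : ℝ) = S.sz t i from rfl]
  field_simp
  ring

/-- The new replica joins correctly. -/
def Shape.ext (S : Shape L n) (i : Fin n) (t : ℕ) (ht : t < L) : Shape L (n + 1) where
  J := S.extJ i t
  self := fun a => by
    induction a using Fin.lastCases with
    | last => simp [Shape.extJ]
    | cast a => simpa [Shape.extJ] using S.self a
  ne := fun a b h => by
    induction a using Fin.lastCases with
    | last =>
      induction b using Fin.lastCases with
      | last => exact absurd rfl h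
      | cast b => simp only [Shape.extJ, Fin.snoc_last, Fin.snoc_castSucc]; omega
    | cast a =>
      induction b using Fin.lastCases with
      | last => simp only [Shape.extJ, Fin.snoc_last, Fin.snoc_castSucc]; omega
      | cast b => simpa [Shape.extJ] using S.ne a b fun e => h (congrArg _ e)
  symm := fun a b => by
    induction a using Fin.lastCases with
    | last =>
      induction b using Fin.lastCases with
      | last => rfl
      | cast b => simp [Shape.extJ]
    | cast a =>
      induction b using Fin.lastCases with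
      | last => simp [Shape.extJ]
      | cast b => simpa [Shape.extJ] using S.symm a b
  ultra := fun a b c => by
    induction a using Fin.lastCases with
    | last =>
      induction b using Fin.lastCases with
      | last => induction c using Fin.lastCases <;> simp [Shape.extJ]
      | cast b =>
        induction c using Fin.lastCases with
        | last => simp only [Shape.extJ, Fin.snoc_last, Fin.snoc_castSucc]; omega
        | cast c =>
          have := S.ultra i b c
          simp only [Shape.extJ, Fin.snoc_last, Fin.snoc_castSucc]; omega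
    | cast a =>
      induction b using Fin.lastCases with
      | last =>
        induction c using Fin.lastCases with
        | last => simp only [Shape.extJ, Fin.snoc_last, Fin.snoc_castSucc]; omega
        | cast c =>
          have h1 := S.ultra a i c
          have h2 := S.symm i a
          simp only [Shape.extJ, Fin.snoc_last, Fin.snoc_castSucc]; omega
      | cast b =>
        induction c using Fin.lastCases with
        | last =>
          have h1 := S.ultra i b a
          have h2 := S.symm a b
          simp only [Shape.extJ, Fin.snoc_last, Fin.snoc_castSucc]; omega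
        | cast c => simpa [Shape.extJ] using S.ultra a b c

end Vale.Agent.P168
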