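import Vale.Agent.P168.Tree.Pins

/-!
# P168: paths below a node, conditional expectations, and sums over nodes
-/

open Real Finset

namespace Vale.Agent.P168

variable {L n a : ℕ} {Z : Type} [Fintype Z] [DecidableEq Z] [Nonempty Z]

/-- The paths through the node of `p` at level `t`. -/
def fib (t : ℕ) (p : Fin L → Z) : Finset (Fin L → Z) :=
  univ.filter fun q => ∀ c : Fin L, (c : ℕ) < t → q c = p c

/-- The density of one path below level `t`. -/
noncomputable def wAbove (G : Grid L) (H : (Fin L → Z) → ℝ) (t : ℕ) (q : Fin L → Z) : ℝ :=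
  exp (∑ s ∈ Icc (t + 1) L, incr G H s q)

theorem mem_fib {t : ℕ} {p q : Fin L → Z} : q ∈ fib t p ↔ ∀ c : Fin L, (c : ℕ) < t → q c = p c := by
  simp [fib]

theorem self_mem_fib (t : ℕ) (p : Fin L → Z) : p ∈ fib t p := mem_fib.2 fun _ _ => rfl

theorem fib_card_pos (t : ℕ) (p : Fin L → Z) : 0 < (fib t p).card := card_pos.2 ⟨p, self_mem_fib t p⟩

theorem fib_congr {t : ℕ} {p p' : Fin L → Z} (h : ∀ c : Fin L, (c : ℕ) < t → p c = p' c) :
    fib t p = fib t p' := by
  ext q
  simp only [mem_fib]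
  exact ⟨fun hq c hc => (hq c hc).trans (h c hc), fun hq c hc => (hq c hc).trans (h c hc).symm⟩

theorem fib_top {t : ℕ} (ht : L ≤ t) (p : Fin L → Z) : fib t p = {p} := by
  ext q
  simp only [mem_fib, mem_singleton]
  exact ⟨fun h => funext fun c => h c (c.2.trans_le ht), fun h c _ => by rw [h]⟩

theorem fib_zero (p : Fin L → Z) : fib 0 p = univ := by
  ext q; simp [mem_fib]

theorem sum_fib_step {t : ℕ} (ht : t < L) (p : Fin L → Z) (g : (Fin L → Z) → ℝ) :
    ∑ q ∈ fib t p, g q = ∑ z, ∑ q ∈ fib (t + 1) (putZ p t z), g q := by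
  rw [← sum_fiberwise (fib t p) (fun q => q ⟨t, ht⟩) g]
  refine sum_congr rfl fun z _ => sum_congr ?_ fun _ _ => rfl
  ext q
  simp only [mem_filter, mem_fib, putZ]
  constructor
  · rintro ⟨h1, h2⟩ c hc
    by_cases h : (c : ℕ) = t
    · rw [if_pos h, ← h2]; exact congrArg q (Fin.ext h)
    · rw [if_neg h]; exact h1 c (by omega)
  · intro h
    refine ⟨fun c hc => ?_, by simpa using h ⟨t, ht⟩ (by simp)⟩
    simpa [hc.ne] using h c (by omega)

theorem fib_card (t : ℕ) (p : Fin L → Z) : (fib t p).card = Fintype.card Z ^ (L - t) := by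
  induction h : L - t generalizing t p with
  | zero => rw [fib_top (by omega), card_singleton, pow_zero]
  | succ d ih =>
    have ht : t < L := by omega
    have e := sum_fib_step ht p fun _ => (1 : ℝ)
    simp only [sum_const, nsmul_eq_mul, mul_one] at e
    rw [sum_congr rfl fun z _ => by rw [ih (t + 1) (putZ p t z) (by omega)], sum_const, card_univ,
      nsmul_eq_mul] at e
    rw [pow_succ']
    exact_mod_cast e

/-! ### The recursion -/

theorem vAt_top (G : Grid L) (H : (Fin L → Z) → ℝ) {t : ℕ} (ht : L ≤ t) (p : Fin L → Z) :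
    vAt G H t p = H p := by
  simp [vAt, Nat.sub_eq_zero_of_le ht, vRec]

theorem vAt_step (G : Grid L) (H : (Fin L → Z) → ℝ) {t : ℕ} (ht : t < L) (p : Fin L → Z) :
    vAt G H t p =
      log (mean fun z => exp (G.m (t + 1) * vAt G H (t + 1) (putZ p t z))) / G.m (t + 1) := by
  rw [vAt, show L - t = (L - (t + 1)) + 1 by omega, vRec,
    show L - (L - (t + 1)) = t + 1 by omega, show t + 1 - 1 = t by omega]
  rfl

theorem vAt_congr (G : Grid L) (H : (Fin L → Z) → ℝ) (t : ℕ) {p p' : Fin L → Z}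
    (h : ∀ c : Fin L, (c : ℕ) < t → p c = p' c) : vAt G H t p = vAt G H t p' := by
  induction hd : L - t generalizing t p p' with
  | zero =>
    rw [show p = p' from funext fun c => h c (lt_of_lt_of_le c.2 (by omega))]
  | succ d ih =>
    have ht : t < L := by omega
    rw [vAt_step G H ht, vAt_step G H ht]
    simp only [mean]
    congr 3
    refine sum_congr rfl fun z _ => ?_
    congr 2
    refine ih (t + 1) (fun c hc => ?_) (by omega)
    simp only [putZ]
    by_cases hc' : (c : ℕ) = t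
    · simp [hc']
    · simp [hc', h c (by omega)]

theorem incr_congr (G : Grid L) (H : (Fin L → Z) → ℝ) (s : ℕ) {p p' : Fin L → Z}
    (h : ∀ c : Fin L, (c : ℕ) < s → p c = p' c) : incr G H s p = incr G H s p' := by
  rw [incr, incr, vAt_congr G H s h, vAt_congr G H (s - 1) fun c hc => h c (by omega)]

theorem sum_exp_incr (G : Grid L) (H : (Fin L → Z) → ℝ) {t : ℕ} (ht : t < L) (p : Fin L → Z) :
    ∑ z, exp (incr G H (t + 1) (putZ p t z)) = Fintype.card Z := by
  have hm := G.m_pos (t + 1) (by omega) ht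
  have hz : (0 : ℝ) < Fintype.card Z := Nat.cast_pos.2 Fintype.card_pos
  have hsum : 0 < ∑ z, exp (G.m (t + 1) * vAt G H (t + 1) (putZ p t z)) :=
    sum_pos (fun _ _ => exp_pos _) univ_nonempty
  have hv : ∀ z, vAt G H (t + 1 - 1) (putZ p t z) = vAt G H t p := fun z => by
    rw [show t + 1 - 1 = t by omega]
    exact vAt_congr G H t fun c hc => by simp [putZ, hc.ne]
  simp only [incr, hv, mul_sub, exp_sub, ← sum_div]
  rw [vAt_step G H ht p, mul_div_cancel₀ _ hm.ne', exp_log (by unfold mean; positivity)]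
  simp only [mean]
  field_simp

theorem wAbove_top (G : Grid L) (H : (Fin L → Z) → ℝ) {t : ℕ} (ht : L ≤ t) (q : Fin L → Z) :
    wAbove G H t q = 1 := by
  rw [wAbove, Icc_eq_empty (by omega), sum_empty, exp_zero]

theorem wAbove_step (G : Grid L) (H : (Fin L → Z) → ℝ) {t : ℕ} (ht : t < L) (q : Fin L → Z) :
    wAbove G H t q = exp (incr G H (t + 1) q) * wAbove G H (t + 1) q := by
  rw [wAbove, wAbove, ← exp_add, ← Finset.insert_Icc_succ_left_eq_Icc (show t + 1 ≤ L by omega),
    sum_insert (by simp), Nat.succ_eq_succ]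

theorem sum_wAbove (G : Grid L) (H : (Fin L → Z) → ℝ) (t : ℕ) (p : Fin L → Z) :
    ∑ q ∈ fib t p, wAbove G H t q = (fib t p).card := by
  induction h : L - t generalizing t p with
  | zero => rw [fib_top (by omega)]; simp [wAbove_top G H (show L ≤ t by omega)]
  | succ d ih =>
    have ht : t < L := by omega
    rw [sum_fib_step ht]
    calc ∑ z, ∑ q ∈ fib (t + 1) (putZ p t z), wAbove G H t q
        = ∑ z, exp (incr G H (t + 1) (putZ p t z)) * ((fib (t + 1) (putZ p t z)).card : ℝ) := by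
          refine sum_congr rfl fun z _ => ?_
          rw [← ih (t + 1) _ (by omega), mul_sum]
          refine sum_congr rfl fun q hq => ?_
          rw [wAbove_step G H ht, incr_congr G H (t + 1) (mem_fib.1 hq)]
      _ = _ := by
          simp only [fib_card, ← sum_mul, sum_exp_incr G H ht]
          rw [show L - t = L - (t + 1) + 1 by omega, pow_succ']
          push_cast
          ring

theorem sz_one {s : ℕ} (hs : s ≤ L) : (Shape.one L).sz s 0 = 1 :=
  le_antisymm ((card_le_univ _).trans (by simp)) (sz_pos _ hs 0)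

theorem cndAt_eq (G : Grid L) (H : (Fin L → Z) → ℝ) (t : ℕ) (φ : (Fin L → Z) → ℝ) (p : Fin L → Z) :
    cndAt G H t φ p = (∑ q ∈ fib t p, wAbove G H t q * φ q) / (fib t p).card := by
  have hc : ∀ ξ : Fin 1 → Fin L → Z, ξ ∈ ((Shape.one L).consistent (Z := Z)).filter
      (fun ξ => ∀ i (c : Fin L), (c : ℕ) < t → ξ i c = p c) ↔ ξ 0 ∈ fib t p := fun ξ => by
    simp [Shape.consistent, mem_fib, Fin.forall_fin_one]
  rw [cndAt, Shape.Ec]
  congr 1
  · refine sum_bij' (fun ξ _ => ξ 0) (fun q _ => fun _ => q) (fun ξ hξ => (hc ξ).1 hξ)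
      (fun q hq => (hc _).2 hq) (fun ξ _ => funext fun i => by rw [Subsingleton.elim i 0])
      (fun q _ => rfl) fun ξ _ => ?_
    rw [wAbove, Fin.sum_univ_one]
    congr 2
    refine sum_congr rfl fun s hs => ?_
    rw [sz_one (mem_Icc.1 hs).2, Nat.cast_one, div_one]
  · norm_cast
    exact card_bij' (fun ξ _ => ξ 0) (fun q _ => fun _ => q) (fun ξ hξ => (hc ξ).1 hξ)
      (fun q hq => (hc _).2 hq) (fun ξ _ => funext fun i => by rw [Subsingleton.elim i 0])
      (fun q _ => rfl)

theorem cndAt_one (G : Grid L) (H : (Fin L → Z) → ℝ) (t : ℕ) (p : Fin L → Z) :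
    cndAt G H t (fun _ => 1) p = 1 := by
  rw [cndAt_eq]
  simp only [mul_one, sum_wAbove]
  exact div_self (Nat.cast_ne_zero.2 (fib_card_pos t p).ne')

theorem cndAt_congr (G : Grid L) (H : (Fin L → Z) → ℝ) (t : ℕ) (φ : (Fin L → Z) → ℝ)
    {p p' : Fin L → Z} (h : ∀ c : Fin L, (c : ℕ) < t → p c = p' c) :
    cndAt G H t φ p = cndAt G H t φ p' := by
  rw [cndAt_eq, cndAt_eq, fib_congr h]

theorem cndAt_top (G : Grid L) (H : (Fin L → Z) → ℝ) {t : ℕ} (ht : L ≤ t) (φ : (Fin L → Z) → ℝ)
    (p : Fin L → Z) : cndAt G H t φ p = φ p := by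
  simp [cndAt_eq, fib_top ht, wAbove_top G H ht]

theorem cndAt_step (G : Grid L) (H : (Fin L → Z) → ℝ) {t : ℕ} (ht : t < L) (φ : (Fin L → Z) → ℝ)
    (p : Fin L → Z) :
    cndAt G H t φ p = (∑ z, exp (incr G H (t + 1) (putZ p t z)) *
      cndAt G H (t + 1) φ (putZ p t z)) / Fintype.card Z := by
  simp only [cndAt_eq, sum_fib_step ht p]
  simp only [mul_div_assoc', ← sum_div, fib_card, div_div]
  congr 1
  · refine sum_congr rfl fun z _ => ?_
    rw [mul_sum]
    refine sum_congr rfl fun q hq => ?_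
    rw [wAbove_step G H ht, incr_congr G H (t + 1) (mem_fib.1 hq), mul_assoc]
  · rw [show L - t = L - (t + 1) + 1 by omega, pow_succ]
    push_cast
    ring

/-! ### Arrays and sums over nodes -/

theorem mem_consistent (S : Shape L n) {ξ : Fin n → Fin L → Z} :
    ξ ∈ S.consistent ↔ ∀ i j (c : Fin L), (c : ℕ) < S.J i j → ξ i c = ξ j c := by
  simp [Shape.consistent]

theorem consistent_pos (S : Shape L n) : 0 < (S.consistent (Z := Z)).card :=
  card_pos.2 ⟨fun _ _ => Classical.arbitrary Z, (mem_consistent S).2 fun _ _ _ _ => rfl⟩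

theorem comap_mem (S : Shape L n) (e : Fin a ↪ Fin n) {ξ : Fin n → Fin L → Z}
    (h : ξ ∈ S.consistent) : (fun c => ξ (e c)) ∈ (S.comap e).consistent :=
  (mem_consistent _).2 fun i j c hc => (mem_consistent S).1 h (e i) (e j) c hc

theorem dens_eq (S : Shape L n) (G : Grid L) (H : (Fin L → Z) → ℝ) (ξ : Fin n → Fin L → Z) :
    S.dens G H ξ = exp (∑ s ∈ Icc 1 L, ∑ i, incr G H s (ξ i) / S.sz s i) := by
  rw [Shape.dens, sum_comm]

theorem incr_class (S : Shape L n) (G : Grid L) (H : (Fin L → Z) → ℝ) {ξ : Fin n → Fin L → Z}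
    (h : ξ ∈ S.consistent) {s : ℕ} {i j : Fin n} (hij : s ≤ S.J i j) :
    incr G H s (ξ i) = incr G H s (ξ j) :=
  incr_congr G H s fun c hc => (mem_consistent S).1 h i j c (hc.trans_le hij)

/-- Replicas that meet every node of level `s` see the whole sum over the nodes of that level. -/
theorem sum_nodes_meet (S : Shape L n) (e : Fin a ↪ Fin n) {s : ℕ} (hs : s ≤ L) (f : Fin n → ℝ)
    (hf : ∀ i j, s ≤ S.J i j → f i = f j) (hmeet : ∀ i, ∃ c, s ≤ S.J i (e c)) :
    ∑ c, f (e c) / (S.comap e).sz s c = ∑ i, f i / S.sz s i := by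
  have h1 : ∀ c, f (e c) / (S.comap e).sz s c =
      ∑ i, if s ≤ S.J i (e c) then f i / S.sz s i / (S.comap e).sz s c else 0 := fun c => by
    rw [← sum_filter]
    have hset : univ.filter (fun i => s ≤ S.J i (e c)) = S.cls s (e c) := by
      ext i; rw [mem_filter, mem_cls, S.symm]; simp
    rw [hset, sum_congr rfl fun i hi => show f i / S.sz s i / (S.comap e).sz s c =
      f (e c) / S.sz s (e c) / (S.comap e).sz s c by
        rw [Shape.sz, Shape.sz, Shape.sz, cls_eq S ((mem_cls S).1 hi), hf _ _ ((mem_cls S).1 hi)],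
      sum_const, nsmul_eq_mul, show ((S.cls s (e c)).card : ℝ) = S.sz s (e c) from rfl,
      ← mul_div_assoc, mul_div_cancel₀ _ (Nat.cast_ne_zero.2 (sz_pos S hs _).ne')]
  simp only [h1]
  rw [sum_comm]
  refine sum_congr rfl fun i _ => ?_
  obtain ⟨c0, hc0⟩ := hmeet i
  have hset : univ.filter (fun c => s ≤ S.J i (e c)) = (S.comap e).cls s c0 := by
    ext c
    simp only [mem_filter, mem_univ, true_and, mem_cls]
    show s ≤ S.J i (e c) ↔ s ≤ S.J (e c0) (e c)
    constructor <;> intro h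
    · exact (le_min (S.symm i (e c0) ▸ hc0) h).trans (S.ultra _ i _)
    · exact (le_min hc0 h).trans (S.ultra _ (e c0) _)
  rw [← sum_filter, hset, sum_congr rfl fun c hc => show f i / S.sz s i / (S.comap e).sz s c =
    f i / S.sz s i / (S.comap e).sz s c0 by
      rw [Shape.sz, Shape.sz, Shape.sz, cls_eq (S.comap e) ((mem_cls _).1 hc)],
    sum_const, nsmul_eq_mul, show (((S.comap e).cls s c0).card : ℝ) = (S.comap e).sz s c0 from rfl,
    mul_div_cancel₀ _ (Nat.cast_ne_zero.2 (sz_pos _ hs _).ne')]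

/-- Replicas forming whole nodes of level `s` see the sum over those nodes. -/
theorem sum_nodes_closed (S : Shape L n) (e : Fin a ↪ Fin n) {s : ℕ} (f : Fin n → ℝ)
    (hcl : ∀ c i, s ≤ S.J (e c) i → ∃ d, e d = i) :
    ∑ c, f (e c) / (S.comap e).sz s c = ∑ i ∈ univ.map e, f i / S.sz s i := by
  rw [sum_map]
  refine sum_congr rfl fun c _ => ?_
  have hset : ((S.comap e).cls s c).map e = S.cls s (e c) := by
    ext i
    simp only [Finset.mem_map, mem_cls]
    constructor
    · rintro ⟨d, hd, rfl⟩; exact hd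
    · intro h
      obtain ⟨d, rfl⟩ := hcl c i h
      exact ⟨d, h, rfl⟩
  rw [Shape.sz, Shape.sz, ← hset, card_map]

end Vale.Agent.P168
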