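import Vale.Agent.P168.Tree.Fibre

/-!
# P168: deleting replicas
-/

open Real Finset

namespace Vale.Agent.P168

variable {L n a : ℕ} {Z : Type} [Fintype Z] [DecidableEq Z] [Nonempty Z]

/-- The replica `j0` is attached at level `t` to the node of `e c0`. -/
structure Shape.Attached (S : Shape L n) (e : Fin a ↪ Fin n) (j0 : Fin n) (c0 : Fin a) (t : ℕ) : Prop where
  cover : ∀ j, j ≠ j0 → ∃ c, e c = j
  out : ∀ c, e c ≠ j0
  join : S.J j0 (e c0) = t
  top : ∀ c, S.J j0 (e c) ≤ t

theorem Shape.Attached.lt {S : Shape L n} {e : Fin a ↪ Fin n} {j0 : Fin n} {c0 : Fin a} {t : ℕ}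
    (h : S.Attached e j0 c0 t) : t < L :=
  h.join ▸ S.ne _ _ (h.out c0).symm

theorem Shape.Attached.join_eq {S : Shape L n} {e : Fin a ↪ Fin n} {j0 : Fin n} {c0 : Fin a} {t : ℕ}
    (h : S.Attached e j0 c0 t) (c : Fin a) : S.J j0 (e c) = min t (S.J (e c0) (e c)) := by
  have h1 := S.ultra j0 (e c0) (e c)
  have h2 := S.ultra (e c0) j0 (e c)
  have h3 := h.top c
  have h4 := S.symm j0 (e c0)
  rw [h.join] at h1 h4
  omega

theorem dens_attach {S : Shape L n} {e : Fin a ↪ Fin n} {j0 : Fin n} {c0 : Fin a} {t : ℕ}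
    (h : S.Attached e j0 c0 t) (G : Grid L) (H : (Fin L → Z) → ℝ) {ξ : Fin n → Fin L → Z}
    (hξ : ξ ∈ S.consistent) :
    S.dens G H ξ = (S.comap e).dens G H (fun c => ξ (e c)) * wAbove G H t (ξ j0) := by
  have ht := h.lt
  rw [dens_eq, dens_eq, wAbove, ← exp_add]
  congr 1
  have hsplit : ∀ g : ℕ → ℝ, ∑ s ∈ Icc 1 L, g s = ∑ s ∈ Icc 1 t, g s + ∑ s ∈ Icc (t + 1) L, g s := by
    intro g
    rw [← sum_union (disjoint_left.2 fun x hx hx' => by simp at hx hx'; omega)]
    congr 1
    ext x; simp; omega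
  rw [hsplit, hsplit (fun s => ∑ c, _), add_assoc, ← sum_add_distrib]
  congr 1
  · refine sum_congr rfl fun s hs => (sum_nodes_meet S e (by simp at hs; omega) (fun i => incr G H s (ξ i))
      (fun i j hij => incr_class S G H hξ hij) fun i => ?_).symm
    by_cases hi : i = j0
    · exact ⟨c0, by rw [hi, h.join]; simp at hs; omega⟩
    · obtain ⟨c, rfl⟩ := h.cover i hi
      exact ⟨c, by rw [S.self]; simp at hs; omega⟩
  · refine sum_congr rfl fun s hs => ?_
    simp only [mem_Icc] at hs
    rw [sum_nodes_closed S e (fun i => incr G H s (ξ i)) fun c i hci => h.cover i ?_]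
    · have hset : (univ : Finset (Fin n)) = insert j0 (univ.map e) := by
        ext j
        simp only [mem_univ, mem_insert, Finset.mem_map, true_and, true_iff]
        exact (em (j = j0)).imp id (h.cover j)
      have h1 : S.sz s j0 = 1 := by
        rw [Shape.sz, card_eq_one]
        refine ⟨j0, ?_⟩
        ext j
        simp only [mem_cls, mem_singleton]
        refine ⟨fun hj => ?_, fun hj => by subst hj; rw [S.self]; exact hs.2⟩
        by_contra hne
        obtain ⟨c, rfl⟩ := h.cover j hne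
        have := h.top c
        omega
      rw [hset, sum_insert (by simp [h.out]), h1, Nat.cast_one, div_one, add_comm]
    · intro hi
      rw [hi, S.symm] at hci
      have := h.top c
      omega

theorem E_attach {S : Shape L n} {e : Fin a ↪ Fin n} {j0 : Fin n} {c0 : Fin a} {t : ℕ}
    (h : S.Attached e j0 c0 t) (G : Grid L) (H : (Fin L → Z) → ℝ)
    (φ : (Fin a → Fin L → Z) → ℝ) (ψ : (Fin L → Z) → ℝ) :
    S.E G H (fun ξ => φ (fun c => ξ (e c)) * ψ (ξ j0))
      = (S.comap e).E G H fun η => φ η * cndAt G H t ψ (η c0) := by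
  have bij : ∀ g : (Fin a → Fin L → Z) → (Fin L → Z) → ℝ,
      ∑ ξ ∈ S.consistent, g (fun c => ξ (e c)) (ξ j0)
        = ∑ η ∈ (S.comap e).consistent, ∑ q ∈ fib t (η c0), g η q := by
    intro g
    rw [sum_sigma']
    refine sum_bij' (fun ξ _ => ⟨fun c => ξ (e c), ξ j0⟩)
      (fun p _ => Function.extend e p.1 (fun _ => p.2)) (fun ξ hξ => ?_) (fun p hp => ?_)
      (fun ξ _ => ?_) (fun p _ => ?_) fun ξ _ => rfl
    · refine mem_sigma.2 ⟨comap_mem S e hξ, mem_fib.2 fun c hc => ?_⟩
      exact (mem_consistent S).1 hξ j0 (e c0) c (h.join ▸ hc)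
    · obtain ⟨hη, hq⟩ := mem_sigma.1 hp
      have hjc : ∀ (d : Fin a) (c : Fin L), (c : ℕ) < S.J j0 (e d) → p.2 c = p.1 d c := by
        intro d c hc
        rw [h.join_eq d] at hc
        rw [mem_fib.1 hq c (hc.trans_le (min_le_left _ _))]
        exact (mem_consistent _).1 hη c0 d c (hc.trans_le (min_le_right _ _))
      have hout : Function.extend e p.1 (fun _ => p.2) j0 = p.2 :=
        Function.extend_apply' _ _ _ fun ⟨d, hd⟩ => h.out d hd
      refine (mem_consistent S).2 fun i j c hc => ?_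
      by_cases hi : i = j0 <;> by_cases hj : j = j0
      · rw [hi, hj]
      · obtain ⟨d, rfl⟩ := h.cover j hj
        rw [hi, hout, e.injective.extend_apply]
        exact hjc d c (hi ▸ hc)
      · obtain ⟨d, rfl⟩ := h.cover i hi
        rw [hj, hout, e.injective.extend_apply]
        exact (hjc d c (by rw [S.symm, ← hj]; exact hc)).symm
      · obtain ⟨d, rfl⟩ := h.cover i hi
        obtain ⟨d', rfl⟩ := h.cover j hj
        rw [e.injective.extend_apply, e.injective.extend_apply]
        exact (mem_consistent _).1 hη d d' c hc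
    · funext i
      by_cases hi : i = j0
      · rw [hi, Function.extend_apply' _ _ _ fun ⟨d, hd⟩ => h.out d hd]
      · obtain ⟨d, rfl⟩ := h.cover i hi
        rw [e.injective.extend_apply]
    · refine Sigma.ext (funext fun c => ?_) (heq_of_eq ?_)
      · show Function.extend e p.1 (fun _ => p.2) (e c) = p.1 c
        exact e.injective.extend_apply _ _ c
      · show Function.extend e p.1 (fun _ => p.2) j0 = p.2
        exact Function.extend_apply' _ _ _ fun ⟨d, hd⟩ => h.out d hd
  have hN : (0 : ℝ) < (Fintype.card Z : ℝ) ^ (L - t) := pow_pos (Nat.cast_pos.2 Fintype.card_pos) _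
  have hcard : ((S.consistent (Z := Z)).card : ℝ) =
      ((S.comap e).consistent (Z := Z)).card * (Fintype.card Z : ℝ) ^ (L - t) := by
    have h1 := bij fun _ _ => (1 : ℝ)
    simp only [sum_const, nsmul_eq_mul, mul_one, fib_card] at h1
    rw [h1]
    push_cast
    rfl
  rw [Shape.E, Shape.E, hcard, sum_congr rfl fun ξ hξ => by
      rw [dens_attach h G H hξ],
    bij fun η q => (S.comap e).dens G H η * wAbove G H t q * (φ η * ψ q), ← div_div, div_right_comm,
    sum_div]
  congr 1
  refine sum_congr rfl fun η _ => ?_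
  rw [cndAt_eq, fib_card, Nat.cast_pow, sum_div, sum_div, mul_sum, mul_sum]
  exact sum_congr rfl fun q _ => by ring

theorem exists_attach (S : Shape L n) (e : Fin a ↪ Fin n) {j0 : Fin n} (hc : ∀ j, j ≠ j0 → ∃ c, e c = j)
    (ho : ∀ c, e c ≠ j0) (ha : 0 < a) : ∃ c0 t, S.Attached e j0 c0 t := by
  obtain ⟨c0, -, hmax⟩ := exists_max_image univ (fun c => S.J j0 (e c)) ⟨⟨0, ha⟩, mem_univ _⟩
  exact ⟨c0, _, hc, ho, rfl, fun c => hmax c (mem_univ c)⟩

/-- Renaming the replicas. -/
theorem E_reindex (S : Shape L n) (e : Fin a ↪ Fin n) (he : Function.Surjective e) (G : Grid L)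
    (H : (Fin L → Z) → ℝ) (φ : (Fin a → Fin L → Z) → ℝ) :
    S.E G H (fun ξ => φ fun c => ξ (e c)) = (S.comap e).E G H φ := by
  have hd : ∀ ξ ∈ S.consistent (Z := Z), S.dens G H ξ = (S.comap e).dens G H fun c => ξ (e c) := by
    intro ξ hξ
    rw [dens_eq, dens_eq]
    congr 1
    refine sum_congr rfl fun s hs => (sum_nodes_meet S e (mem_Icc.1 hs).2 (fun i => incr G H s (ξ i))
      (fun i j hij => incr_class S G H hξ hij) fun i => ?_).symm
    obtain ⟨c, rfl⟩ := he i
    exact ⟨c, by rw [S.self]; exact (mem_Icc.1 hs).2⟩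
  have bij : ∀ g : (Fin a → Fin L → Z) → ℝ,
      ∑ ξ ∈ S.consistent, g (fun c => ξ (e c)) = ∑ η ∈ (S.comap e).consistent, g η := by
    intro g
    refine sum_bij (fun ξ _ => fun c => ξ (e c)) (fun ξ hξ => comap_mem S e hξ)
      (fun x _ y _ hxy => funext fun i => by obtain ⟨c, rfl⟩ := he i; exact congr_fun hxy c)
      (fun η hη => ⟨Function.extend e η (fun _ _ => Classical.arbitrary Z), (mem_consistent S).2 ?_,
        funext fun c => e.injective.extend_apply _ _ c⟩) fun _ _ => rfl
    intro i j c hc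
    obtain ⟨d, rfl⟩ := he i
    obtain ⟨d', rfl⟩ := he j
    rw [e.injective.extend_apply, e.injective.extend_apply]
    exact (mem_consistent _).1 hη d d' c hc
  rw [Shape.E, Shape.E, sum_congr rfl fun ξ hξ => by rw [hd ξ hξ], bij fun η => (S.comap e).dens G H η * φ η]
  congr 1
  have h1 := bij fun _ => (1 : ℝ)
  simpa using h1

theorem comap_comap {b : ℕ} (S : Shape L n) (e : Fin a ↪ Fin n) (e' : Fin b ↪ Fin a) :
    (S.comap e).comap e' = S.comap (e'.trans e) := rfl

theorem marginal_pos (S : Shape L n) (e : Fin a ↪ Fin n) (ha : 0 < a) (G : Grid L)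
    (H : (Fin L → Z) → ℝ) (φ : (Fin a → Fin L → Z) → ℝ) :
    S.E G H (fun ξ => φ fun c => ξ (e c)) = (S.comap e).E G H φ := by
  induction n with
  | zero => exact absurd (e ⟨0, ha⟩).2 (Nat.not_lt_zero _)
  | succ n ih =>
    by_cases he : Function.Surjective e
    · exact E_reindex S e he G H φ
    simp only [Function.Surjective, not_forall, not_exists] at he
    obtain ⟨j0, hj0⟩ := he
    have hmk : ∀ c, ∃ d, j0.succAbove d = e c := fun c => Fin.exists_succAbove_eq (hj0 c)
    choose d hd using hmk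
    let e' : Fin a ↪ Fin n := ⟨d, fun x y hxy => e.injective (by rw [← hd x, ← hd y, hxy])⟩
    have hee : e'.trans (Fin.succAboveEmb j0) = e := Function.Embedding.ext hd
    have hn : 0 < n := (Nat.eq_zero_or_pos n).resolve_left fun h => by
      subst h; exact (d ⟨0, ha⟩).elim0
    obtain ⟨c0, t, hat⟩ := exists_attach S (Fin.succAboveEmb j0)
      (fun j hj => Fin.exists_succAbove_eq hj) (fun c => Fin.succAbove_ne j0 c) hn
    have h1 := E_attach hat G H (fun η => φ fun c => η (e' c)) (fun _ => 1)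
    simp only [mul_one, cndAt_one] at h1
    rw [ih (S.comap (Fin.succAboveEmb j0)) e', comap_comap, hee] at h1
    rw [show (fun ξ : Fin (n + 1) → Fin L → Z => φ fun c => ξ (e c)) = fun ξ => φ fun c => ξ (j0.succAbove (d c))
      from funext fun ξ => congrArg φ (funext fun c => by rw [hd c])]
    exact h1

theorem E_one_mass (G : Grid L) (H : (Fin L → Z) → ℝ) (S : Shape L 1) : S.E G H (fun _ => 1) = 1 := by
  have hd : ∀ ξ : Fin 1 → Fin L → Z, S.dens G H ξ = wAbove G H 0 (ξ 0) := fun ξ => by
    rw [Shape.dens, wAbove, Fin.sum_univ_one]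
    congr 1
    refine sum_congr rfl fun s hs => ?_
    have h1 : S.sz s 0 = 1 :=
      le_antisymm ((card_le_univ _).trans (by simp)) (sz_pos S (mem_Icc.1 hs).2 0)
    rw [h1, Nat.cast_one, div_one]
  have hu : (S.consistent (Z := Z)) = univ := eq_univ_of_forall fun ξ => (mem_consistent S).2
    fun i j _ _ => by rw [Subsingleton.elim i j]
  rw [Shape.E, hu, sum_congr rfl fun ξ _ => by rw [hd, mul_one],
    Fintype.sum_equiv (Equiv.funUnique (Fin 1) (Fin L → Z)) (fun ξ => wAbove G H 0 (ξ 0))
      (fun q => wAbove G H 0 q) fun ξ => rfl,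
    div_eq_one_iff_eq (Nat.cast_ne_zero.2 (card_ne_zero_of_mem (mem_univ (fun _ _ => Classical.arbitrary Z))))]
  have h := sum_wAbove G H 0 (fun _ => Classical.arbitrary Z)
  rw [fib_zero] at h
  rw [h]
  simp

theorem E_mass (S : Shape L n) (G : Grid L) (H : (Fin L → Z) → ℝ) : S.E G H (fun _ => 1) = 1 := by
  rcases Nat.eq_zero_or_pos n with rfl | hn
  · have hu : (S.consistent (Z := Z)) = univ := eq_univ_of_forall fun ξ =>
      (mem_consistent S).2 fun i => i.elim0
    simp [Shape.E, Shape.dens, hu]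
  · have h := marginal_pos S ⟨fun _ : Fin 1 => ⟨0, hn⟩, fun x y _ => Subsingleton.elim x y⟩ one_pos G H
      (fun _ => 1)
    rw [h, E_one_mass]

theorem marginalStmt : MarginalStmt := by
  intro L n a Z _ _ _ G H S e φ
  rcases Nat.eq_zero_or_pos a with rfl | ha
  · have hs : ∀ ξ : Fin 0 → Fin L → Z, φ ξ = φ default * 1 := fun ξ => by
      rw [mul_one, Subsingleton.elim ξ default]
    have hc : ∀ (m : ℕ) (T : Shape L m), T.E G H (fun _ => φ default * 1) = φ default := fun m T => by
      have h := E_mass T G H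
      rw [Shape.E] at h ⊢
      simp only [mul_left_comm _ (φ default)]
      rw [← mul_sum, mul_div_assoc, h, mul_one]
    calc S.E G H (fun ξ => φ fun i => ξ (e i)) = S.E G H (fun _ => φ default * 1) := by
          exact congrArg (S.E G H) (funext fun ξ => hs _)
      _ = φ default := hc n S
      _ = (S.comap e).E G H (fun _ => φ default * 1) := (hc 0 _).symm
      _ = _ := by rw [← funext hs]
  · exact marginal_pos S e ha G H φ

theorem massStmt : MassStmt := fun L n Z _ _ _ G H S =>
  ⟨E_mass S G H, fun ξ ξ' => vAt_congr G H 0 fun c hc => absurd hc (Nat.not_lt_zero _)⟩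

end Vale.Agent.P168
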