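import Vale.Agent.P168.Tree.Basic

/-!
# P168: the statements about finite trees
-/

open Real Finset

namespace Vale.Agent.P168

variable {L n a : ℕ} {Z : Type} [Fintype Z] [DecidableEq Z] [Nonempty Z]

/-- The shape seen by some of the replicas. -/
def Shape.comap (S : Shape L n) (e : Fin a ↪ Fin n) : Shape L a where
  J := fun i j => S.J (e i) (e j)
  self := fun i => S.self _
  ne := fun _ _ h => S.ne _ _ fun h' => h (e.injective h')
  symm := fun _ _ => S.symm _ _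
  ultra := fun _ _ _ => S.ultra _ _ _

/-- The expectation given the node of level `t` with prefix `ξ₀`, for a shape with all joins above `t`. -/
noncomputable def Shape.Ec (S : Shape L n) (G : Grid L) (H : (Fin L → Z) → ℝ) (t : ℕ) (ξ₀ : Fin L → Z)
    (φ : (Fin n → Fin L → Z) → ℝ) : ℝ :=
  (∑ ξ ∈ (S.consistent (Z := Z)).filter fun ξ => ∀ i (c : Fin L), (c : ℕ) < t → ξ i c = ξ₀ c,
      exp (∑ i, ∑ s ∈ Icc (t + 1) L, incr G H s (ξ i) / S.sz s i) * φ ξ)
    / ((S.consistent (Z := Z)).filter fun ξ => ∀ i (c : Fin L), (c : ℕ) < t → ξ i c = ξ₀ c).card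

/-- The conditional expectation of a function of one leaf given its node of level `t`. -/
noncomputable def cndAt (G : Grid L) (H : (Fin L → Z) → ℝ) (t : ℕ) (φ : (Fin L → Z) → ℝ)
    (ξ₀ : Fin L → Z) : ℝ :=
  (Shape.one L).Ec G H t ξ₀ fun ξ => φ (ξ 0)

/-- Deleting replicas does not change the law of the others. -/
def MarginalStmt : Prop :=
  ∀ (L n a : ℕ) (Z : Type) [Fintype Z] [DecidableEq Z] [Nonempty Z] (G : Grid L) (H : (Fin L → Z) → ℝ)
    (S : Shape L n) (e : Fin a ↪ Fin n) (φ : (Fin a → Fin L → Z) → ℝ),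
    S.E G H (fun ξ => φ fun i => ξ (e i)) = (S.comap e).E G H φ

/-- The value at the root does not depend on the path, and total masses are one. -/
def MassStmt : Prop :=
  ∀ (L n : ℕ) (Z : Type) [Fintype Z] [DecidableEq Z] [Nonempty Z] (G : Grid L) (H : (Fin L → Z) → ℝ)
    (S : Shape L n), S.E G H (fun _ => 1) = 1 ∧ ∀ ξ ξ', vAt G H 0 ξ = vAt G H 0 ξ'

/-- The derivative of an expectation in the potential. -/
def DerivStmt : Prop :=
  ∀ (L n : ℕ) (Z : Type) [Fintype Z] [DecidableEq Z] [Nonempty Z] (G : Grid L)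
    (H : ℝ → (Fin L → Z) → ℝ) (Y : (Fin L → Z) → ℝ) (S : Shape L n)
    (φ : ℝ → (Fin n → Fin L → Z) → ℝ) (φd : (Fin n → Fin L → Z) → ℝ) (u : ℝ),
    (∀ ξ, HasDerivAt (fun v => H v ξ) (Y ξ) u) → (∀ ξ, HasDerivAt (fun v => φ v ξ) (φd ξ) u) →
    HasDerivAt (fun v => S.E G (H v) (φ v))
      (S.E G (H u) φd + ∑ i, (S.E G (H u) (fun ξ => φ u ξ * Y (ξ i))
        - ∑ t : Fin L, S.attW G i t *
          (S.ext i t t.2).E G (H u) fun ξ => φ u (fun j => ξ j.castSucc) * Y (ξ (Fin.last n)))) u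

/-- The derivative of the root value. -/
def RootStmt : Prop :=
  ∀ (L : ℕ) (Z : Type) [Fintype Z] [DecidableEq Z] [Nonempty Z] (G : Grid L)
    (H : ℝ → (Fin L → Z) → ℝ) (Y : (Fin L → Z) → ℝ) (ξ₀ : Fin L → Z) (u : ℝ),
    (∀ ξ, HasDerivAt (fun v => H v ξ) (Y ξ) u) →
    HasDerivAt (fun v => vAt G (H v) 0 ξ₀) ((Shape.one L).E G (H u) fun ξ => Y (ξ 0)) u

/-- A whole node may be replaced by one replica carrying the conditional expectation of the node. -/
def SplitStmt : Prop :=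
  ∀ (L n a b : ℕ) (Z : Type) [Fintype Z] [DecidableEq Z] [Nonempty Z] (G : Grid L) (H : (Fin L → Z) → ℝ)
    (S : Shape L n) (t : ℕ) (i : Fin n) (eA : Fin a ↪ Fin n) (eB : Fin b ↪ Fin n) (i' : Fin b)
    (F : (Fin a → Fin L → Z) → ℝ) (K : (Fin b → Fin L → Z) → ℝ),
    t ≤ L → (∀ j, j ∈ S.cls t i ↔ ∃ c, eA c = j) → eB i' = i →
    (∀ j, (∃ c, eB c = j) ↔ j = i ∨ j ∉ S.cls t i) →
    (∀ ξ ξ' : Fin b → Fin L → Z, (∀ c, c ≠ i' → ξ c = ξ' c) →
      (∀ c : Fin L, (c : ℕ) < t → ξ i' c = ξ' i' c) → K ξ = K ξ') →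
    S.E G H (fun ξ => F (fun c => ξ (eA c)) * K fun c => ξ (eB c))
      = (S.comap eB).E G H fun ξ => (S.comap eA).Ec G H t (ξ i') F * K ξ

/-- The slope of the energy dominates its thermal variance. -/
def VarStmt : Prop :=
  ∀ (L : ℕ) (Z : Type) [Fintype Z] [DecidableEq Z] [Nonempty Z] (G : Grid L) (H : (Fin L → Z) → ℝ)
    (Y : (Fin L → Z) → ℝ), 0 < L →
    G.m 1 * ((Shape.one L).E G H (fun ξ => Y (ξ 0) ^ 2) - (Shape.one L).E G H (fun ξ => Y (ξ 0)) ^ 2)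
      ≤ (Shape.one L).E G H (fun ξ => Y (ξ 0) ^ 2) - ∑ t : Fin L, (Shape.one L).attW G 0 t *
          ((Shape.one L).ext 0 t t.2).E G H fun ξ => Y (ξ 0) * Y (ξ 1)

end Vale.Agent.P168
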