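import Vale.Agent.P168.Tree.Pins

/-!
# P168: placements of colours

A position is a shape with some base replicas and a list of coloured replicas.  One step colours an
uncoloured replica (weight `1`) or creates a coloured replica in a new child (weight `-attW`).  These
steps are the derivatives of expectations in the strength of a one-term perturbation.
-/

open Real Finset

namespace Vale.Agent.P168

variable {L b : ℕ} {Z : Type} [Fintype Z] [DecidableEq Z] [Nonempty Z]

/-- A shape with base replicas and coloured replicas. -/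
structure Pos (L b : ℕ) where
  /-- the number of replicas -/
  n : ℕ
  /-- the shape -/
  S : Shape L n
  /-- the base replicas -/
  base : Fin b → Fin n
  /-- the coloured replicas, the first one is the root colour -/
  col : List (Fin n)

/-- Colour an existing replica. -/
def Pos.hit (P : Pos L b) (l : Fin P.n) : Pos L b :=
  { P with col := P.col ++ [l] }

/-- Create a coloured replica in a new child of the node of `i` at level `t`. -/
def Pos.new (P : Pos L b) (i : Fin P.n) (t : Fin L) : Pos L b where
  n := P.n + 1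
  S := P.S.ext i t t.2
  base := fun c => (P.base c).castSucc
  col := P.col.map Fin.castSucc ++ [Fin.last P.n]

/-- The signed sum over one step. -/
noncomputable def Pos.step (G : Grid L) (P : Pos L b) (Φ : Pos L b → ℝ) : ℝ :=
  ∑ l ∈ Finset.univ.filter (fun l => l ∉ P.col), Φ (P.hit l)
    - ∑ i, ∑ t : Fin L, P.S.attW G i t * Φ (P.new i t)

/-- The signed sum over `q` steps. -/
noncomputable def Pos.place (G : Grid L) : ℕ → Pos L b → (Pos L b → ℝ) → ℝ
  | 0, P, Φ => Φ P
  | q + 1, P, Φ => P.step G fun P' => Pos.place G q P' Φ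

/-- The joins among the coloured replicas. -/
def Pos.joins (P : Pos L b) : List (List ℕ) :=
  P.col.map fun x => P.col.map fun y => P.S.J x y

/-- The first colour carries `Z₀ / (1 + uX)`, the others `X / (1 + uX)`. -/
noncomputable def colProd (X Z₀ : (Fin L → Z) → ℝ) (u : ℝ) {n : ℕ} (col : List (Fin n))
    (ξ : Fin n → Fin L → Z) : ℝ :=
  match col with
  | [] => 1
  | r :: rest => Z₀ (ξ r) / (1 + u * X (ξ r)) * (rest.map fun l => X (ξ l) / (1 + u * X (ξ l))).prod

/-- The expectation of an observable of the base times the colour product. -/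
noncomputable def Pos.val (P : Pos L b) (G : Grid L) (H : (Fin L → Z) → ℝ) (X Z₀ : (Fin L → Z) → ℝ)
    (φ : (Fin b → Fin L → Z) → ℝ) (u : ℝ) : ℝ :=
  P.S.E G (fun ξ => H ξ + log (1 + u * X ξ)) fun ξ =>
    φ (fun c => ξ (P.base c)) * colProd X Z₀ u P.col ξ

/-- One derivative is one step. -/
def DerivPlaceStmt : Prop :=
  ∀ (L b : ℕ) (Z : Type) [Fintype Z] [DecidableEq Z] [Nonempty Z] (G : Grid L) (H : (Fin L → Z) → ℝ)
    (X Z₀ : (Fin L → Z) → ℝ) (φ : (Fin b → Fin L → Z) → ℝ) (P : Pos L b) (u : ℝ),
    P.col ≠ [] → P.col.Nodup → (∀ ξ, 0 < 1 + u * X ξ) →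
    HasDerivAt (P.val G H X Z₀ φ) (P.step G fun P' => P'.val G H X Z₀ φ u) u

/-- Coloured replicas see only each other: one step. -/
def InvStmt : Prop :=
  ∀ (L b b' : ℕ) (G : Grid L) (q : ℕ) (P : Pos L b) (P' : Pos L b') (κ : List (List ℕ) → ℝ),
    P.col.Nodup → P'.col.Nodup → P.joins = P'.joins →
    P.place G q (fun Q => κ Q.joins) = P'.place G q fun Q => κ Q.joins

/-- A bound on signed sums. -/
def PlaceBoundStmt : Prop :=
  ∀ (L b : ℕ) (G : Grid L) (q : ℕ) (P : Pos L b) (Φ : Pos L b → ℝ) (A : ℝ), 0 ≤ A → (∀ Q, |Φ Q| ≤ A) →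
    |P.place G q Φ| ≤ (2 * ((P.n : ℝ) + q)) ^ q * A

theorem Pos.place_succ (G : Grid L) (Φ : Pos L b → ℝ) :
    ∀ (q : ℕ) (P : Pos L b), P.place G (q + 1) Φ = P.place G q fun P' => P'.step G Φ
  | 0, _ => rfl
  | q + 1, P => by
    rw [Pos.place]
    conv_rhs => rw [Pos.place]
    exact congrArg _ (funext fun P' => Pos.place_succ G Φ q P')

end Vale.Agent.P168
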