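import Vale.Agent.P168.Tree.Marginal

/-!
# P168: a node replaced by one replica with the conditional expectation of the node
-/

open Real Finset

namespace Vale.Agent.P168

variable {L n a b : ℕ} {Z : Type} [Fintype Z] [DecidableEq Z] [Nonempty Z]

/-- `eA` lists the node of `i` at level `t`, and `eB` lists `i` with all replicas outside it. -/
structure Shape.IsSplit (S : Shape L n) (t : ℕ) (i : Fin n) (eA : Fin a ↪ Fin n) (eB : Fin b ↪ Fin n)
    (i' : Fin b) : Prop where
  le : t ≤ L
  memA : ∀ j, j ∈ S.cls t i ↔ ∃ c, eA c = j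
  at_i : eB i' = i
  memB : ∀ j, (∃ c, eB c = j) ↔ j = i ∨ j ∉ S.cls t i

variable {S : Shape L n} {t : ℕ} {i : Fin n} {eA : Fin a ↪ Fin n} {eB : Fin b ↪ Fin n} {i' : Fin b}

theorem Shape.IsSplit.out (h : S.IsSplit t i eA eB i') {d : Fin b} (hd : d ≠ i') :
    eB d ∉ S.cls t i := fun hm =>
  hd (eB.injective ((((h.memB _).1 ⟨d, rfl⟩).resolve_right (not_not.2 hm)).trans h.at_i.symm))

theorem Shape.IsSplit.cross (h : S.IsSplit t i eA eB i') {x y : Fin n} (hx : x ∈ S.cls t i)
    (hy : y ∉ S.cls t i) : S.J x y < t ∧ S.J x y ≤ S.J i y := by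
  rw [mem_cls] at hx hy
  have h1 := S.ultra i x y
  omega

theorem dens_split (h : S.IsSplit t i eA eB i') (G : Grid L) (H : (Fin L → Z) → ℝ)
    {ξ : Fin n → Fin L → Z} (hξ : ξ ∈ S.consistent) {q : Fin L → Z} (hq : q ∈ fib t (ξ i)) :
    S.dens G H ξ * wAbove G H t q
      = (S.comap eB).dens G H (Function.update (fun d => ξ (eB d)) i' q)
        * exp (∑ c, ∑ s ∈ Icc (t + 1) L, incr G H s (ξ (eA c)) / (S.comap eA).sz s c) := by
  classical
  set β := Function.update (fun d => ξ (eB d)) i' q
  rw [dens_eq, dens_eq, wAbove, sum_comm (s := (univ : Finset (Fin a))), ← exp_add, ← exp_add]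
  congr 1
  have hsplit : ∀ g : ℕ → ℝ, ∑ s ∈ Icc 1 L, g s = ∑ s ∈ Icc 1 t, g s + ∑ s ∈ Icc (t + 1) L, g s := by
    intro g
    rw [← sum_union (disjoint_left.2 fun x hx hx' => by simp at hx hx'; omega)]
    congr 1
    have := h.le
    ext x; simp; omega
  rw [hsplit, hsplit (fun s => ∑ d, _), add_assoc, add_assoc, ← sum_add_distrib, ← sum_add_distrib]
  congr 1
  · refine sum_congr rfl fun s hs => ?_
    simp only [mem_Icc] at hs
    rw [← sum_nodes_meet S eB (hs.2.trans h.le) (fun j => incr G H s (ξ j))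
      (fun x y hxy => incr_class S G H hξ hxy) fun x => ?_]
    · refine sum_congr rfl fun d _ => ?_
      congr 1
      by_cases hd : d = i'
      · subst hd
        rw [h.at_i]
        simp only [β, Function.update_self]
        exact incr_congr G H s fun c hc => (mem_fib.1 hq c (hc.trans_le hs.2)).symm
      · simp [β, Function.update_of_ne hd]
    · by_cases hx : x ∈ S.cls t i
      · exact ⟨i', by rw [h.at_i, S.symm]; exact hs.2.trans ((mem_cls S).1 hx)⟩
      · obtain ⟨d, rfl⟩ := (h.memB x).2 (Or.inr hx)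
        exact ⟨d, by rw [S.self]; exact hs.2.trans h.le⟩
  · refine sum_congr rfl fun s hs => ?_
    simp only [mem_Icc] at hs
    have hclA : ∀ c j, s ≤ S.J (eA c) j → ∃ d, eA d = j := fun c j hj => by
      refine (h.memA j).1 ((mem_cls S).2 ?_)
      have h1 := (mem_cls S).1 ((h.memA (eA c)).2 ⟨c, rfl⟩)
      have := S.ultra i (eA c) j
      omega
    rw [sum_nodes_closed S eA (fun j => incr G H s (ξ j)) hclA]
    have hA : (univ : Finset (Fin a)).map eA = S.cls t i := by
      ext j; simp [h.memA j]
    have hB : (univ.erase i').map eB = univ \ S.cls t i := by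
      ext j
      simp only [Finset.mem_map, mem_erase, mem_univ, and_true, mem_sdiff, true_and]
      constructor
      · rintro ⟨d, hd, rfl⟩; exact h.out hd
      · intro hj
        obtain ⟨d, rfl⟩ := (h.memB j).2 (Or.inr hj)
        refine ⟨d, fun e => hj ?_, rfl⟩
        subst e
        rw [h.at_i]
        exact self_mem_cls S h.le i
    rw [← add_sum_erase _ _ (mem_univ i'), hA, ← sum_sdiff (subset_univ (S.cls t i)), ← hB, sum_map]
    have hszB : ∀ d, d ≠ i' → (S.comap eB).sz s d = S.sz s (eB d) := fun d hd => by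
      rw [Shape.sz, Shape.sz, ← card_map eB]
      congr 1
      ext j
      simp only [Finset.mem_map, mem_cls]
      constructor
      · rintro ⟨d', hd', rfl⟩; exact hd'
      · intro hj
        obtain ⟨d', rfl⟩ := (h.memB j).2 (Or.inr fun hm => by
          have := h.cross hm (h.out hd)
          have := S.symm (eB d) j
          omega)
        exact ⟨d', hj, rfl⟩
    have hsz1 : (S.comap eB).sz s i' = 1 := by
      rw [Shape.sz, card_eq_one]
      refine ⟨i', ?_⟩
      ext d
      simp only [mem_cls, mem_singleton]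
      refine ⟨fun hd => ?_, fun hd => by subst hd; rw [Shape.self]; exact hs.2⟩
      by_contra hne
      have := h.cross (self_mem_cls S h.le i) (h.out hne)
      have h2 : s ≤ S.J (eB i') (eB d) := hd
      rw [h.at_i] at h2
      omega
    rw [hsz1, Nat.cast_one, div_one, show β i' = q from Function.update_self ..,
      sum_congr rfl fun d hd => show incr G H s (β d) / ((S.comap eB).sz s d : ℝ) =
          incr G H s (ξ (eB d)) / S.sz s (eB d) by
        rw [hszB d (ne_of_mem_erase hd), show β d = ξ (eB d) from Function.update_of_ne (ne_of_mem_erase hd) ..]]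
    ring

theorem sum_split (h : S.IsSplit t i eA eB i')
    (g : (Fin a → Fin L → Z) → (Fin b → Fin L → Z) → ℝ) :
    ∑ β ∈ (S.comap eB).consistent, ∑ α ∈ ((S.comap eA).consistent (Z := Z)).filter
        (fun α => ∀ c (x : Fin L), (x : ℕ) < t → α c x = β i' x), g α β
      = ∑ ξ ∈ S.consistent, ∑ q ∈ fib t (ξ i),
          g (fun c => ξ (eA c)) (Function.update (fun d => ξ (eB d)) i' q) := by
  classical
  rw [sum_sigma', sum_sigma']
  have hA : ∀ (α : Fin a → Fin L → Z) (o : Fin n → Fin L → Z) c,
      Function.extend eA α o (eA c) = α c := fun α o c => eA.injective.extend_apply _ _ _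
  have hB : ∀ (α : Fin a → Fin L → Z) (β : Fin b → Fin L → Z) (o : Fin n → Fin L → Z) d, d ≠ i' →
      Function.extend eA α (Function.extend eB β o) (eB d) = β d := fun α β o d hd => by
    rw [Function.extend_apply' _ _ _ fun he => h.out hd ((h.memA _).2 he), eB.injective.extend_apply]
  refine sum_bij'
    (fun p _ => ⟨Function.extend eA p.2 (Function.extend eB p.1 fun _ => p.1 i'), p.1 i'⟩)
    (fun p _ => ⟨Function.update (fun d => p.1 (eB d)) i' p.2, fun c => p.1 (eA c)⟩)
    (fun p hp => ?_) (fun p hp => ?_) (fun p hp => ?_) (fun p hp => ?_) fun p hp => ?_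
  · obtain ⟨hβ, hα⟩ := mem_sigma.1 hp
    obtain ⟨hα, hpre⟩ := mem_filter.1 hα
    set ξ := Function.extend eA p.2 (Function.extend eB p.1 fun _ => p.1 i')
    have hAA : ∀ c, ξ (eA c) = p.2 c := fun c => hA _ _ c
    have hBB : ∀ d, d ≠ i' → ξ (eB d) = p.1 d := fun d hd => hB _ _ _ d hd
    obtain ⟨ci, hci⟩ := (h.memA i).1 (self_mem_cls S h.le i)
    refine mem_sigma.2 ⟨(mem_consistent S).2 fun x y z hz => ?_, mem_fib.2 fun z hz => ?_⟩
    · have hcases : ∀ x, (∃ c, eA c = x) ∨ ∃ d, d ≠ i' ∧ eB d = x := fun x => by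
        by_cases hx : x ∈ S.cls t i
        · exact Or.inl ((h.memA x).1 hx)
        · obtain ⟨d, hd⟩ := (h.memB x).2 (Or.inr hx)
          refine Or.inr ⟨d, fun e => hx ?_, hd⟩
          rw [← hd, e, h.at_i]; exact self_mem_cls S h.le i
      have hmix : ∀ c d, d ≠ i' → (z : ℕ) < S.J (eA c) (eB d) → p.2 c z = p.1 d z := fun c d hd hz => by
        have h1 := h.cross ((h.memA _).2 ⟨c, rfl⟩) (h.out hd)
        rw [hpre c z (hz.trans h1.1)]
        refine (mem_consistent _).1 hβ i' d z ?_
        show (z : ℕ) < S.J (eB i') (eB d)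
        rw [h.at_i]
        exact hz.trans_le h1.2
      dsimp only
      rcases hcases x with ⟨c, rfl⟩ | ⟨d, hd, rfl⟩ <;> rcases hcases y with ⟨c', rfl⟩ | ⟨d', hd', rfl⟩
      · rw [hAA, hAA]; exact (mem_consistent _).1 hα c c' z hz
      · rw [hAA, hBB d' hd']; exact hmix c d' hd' hz
      · rw [hAA, hBB d hd]; exact (hmix c' d hd (by rwa [S.symm])).symm
      · rw [hBB d hd, hBB d' hd']; exact (mem_consistent _).1 hβ d d' z hz
    · dsimp only
      rw [← hci, hAA]; exact (hpre ci z hz).symm
  · obtain ⟨hξ, hq⟩ := mem_sigma.1 hp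
    refine mem_sigma.2 ⟨(mem_consistent _).2 fun d d' z hz => ?_, mem_filter.2
      ⟨comap_mem S eA hξ, fun c z hz => ?_⟩⟩
    · have hone : ∀ d, d ≠ i' → (z : ℕ) < S.J (eB i') (eB d) → p.2 z = p.1 (eB d) z := fun d hd hz => by
        rw [h.at_i] at hz
        rw [mem_fib.1 hq z (hz.trans (h.cross (self_mem_cls S h.le i) (h.out hd)).1)]
        exact (mem_consistent S).1 hξ i (eB d) z hz
      by_cases hd : d = i' <;> by_cases hd' : d' = i'
      · rw [hd, hd']
      · subst hd; simp only [Function.update_self, Function.update_of_ne hd']; exact hone d' hd' hz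
      · subst hd'
        simp only [Function.update_self, Function.update_of_ne hd]
        refine (hone d hd ?_).symm
        rw [S.symm]; exact hz
      · simp only [Function.update_of_ne hd, Function.update_of_ne hd']
        exact (mem_consistent S).1 hξ (eB d) (eB d') z hz
    · simp only [Function.update_self]
      rw [mem_fib.1 hq z hz]
      refine (mem_consistent S).1 hξ (eA c) i z (hz.trans_le ?_)
      rw [S.symm]; exact (mem_cls S).1 ((h.memA _).2 ⟨c, rfl⟩)
  · refine Sigma.ext (funext fun d => ?_) (heq_of_eq (funext fun c => ?_))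
    · by_cases hd : d = i'
      · subst hd; simp
      · simp only [Function.update_of_ne hd]; exact hB _ _ _ d hd
    · exact hA _ _ c
  · refine Sigma.ext (funext fun x => ?_) (heq_of_eq ?_)
    · dsimp only
      by_cases hx : x ∈ S.cls t i
      · obtain ⟨c, rfl⟩ := (h.memA x).1 hx; exact hA _ _ c
      · obtain ⟨d, rfl⟩ := (h.memB x).2 (Or.inr hx)
        have hd : d ≠ i' := fun e => hx (by rw [e, h.at_i]; exact self_mem_cls S h.le i)
        rw [hB _ _ _ d hd]; simp [Function.update_of_ne hd]
    · simp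
  · congr 1
    · exact funext fun c => (hA _ _ c).symm
    · funext d
      by_cases hd : d = i'
      · subst hd; simp
      · simp only [Function.update_of_ne hd]; exact (hB _ _ _ d hd).symm

theorem card_filter_prefix (T : Shape L a) (p p' : Fin L → Z) :
    ((T.consistent (Z := Z)).filter fun α => ∀ c (x : Fin L), (x : ℕ) < t → α c x = p x).card
      = ((T.consistent (Z := Z)).filter fun α => ∀ c (x : Fin L), (x : ℕ) < t → α c x = p' x).card := by
  classical
  let sh : (Fin L → Z) → (Fin a → Fin L → Z) → Fin a → Fin L → Z :=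
    fun p α c x => if (x : ℕ) < t then p x else α c x
  have hin : ∀ p' (α : Fin a → Fin L → Z), α ∈ T.consistent →
      sh p' α ∈ (T.consistent (Z := Z)).filter fun α => ∀ c (x : Fin L), (x : ℕ) < t → α c x = p' x :=
    fun p' α hα => mem_filter.2 ⟨(mem_consistent T).2 fun c d x hx => by
      simp only [sh]; split_ifs
      · rfl
      · exact (mem_consistent T).1 hα c d x hx, fun c x hx => by simp [sh, hx]⟩
  have hinv : ∀ (p p' : Fin L → Z) (α : Fin a → Fin L → Z), (∀ c (x : Fin L), (x : ℕ) < t → α c x = p x) →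
      sh p (sh p' α) = α := fun p p' α hα => funext fun c => funext fun x => by
    simp only [sh]; split_ifs with hx
    · exact (hα c x hx).symm
    · rfl
  exact card_bij' (fun α _ => sh p' α) (fun α _ => sh p α) (fun α hα => hin p' α (mem_filter.1 hα).1)
    (fun α hα => hin p α (mem_filter.1 hα).1) (fun α hα => hinv p p' α (mem_filter.1 hα).2)
    (fun α hα => hinv p' p α (mem_filter.1 hα).2)

theorem splitStmt : SplitStmt := by
  intro L n a b Z _ _ _ G H S t i eA eB i' F K ht hA hi hB hK
  classical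
  have h : S.IsSplit t i eA eB i' := ⟨ht, hA, hi, hB⟩
  set T := S.comap eA
  set N : ℕ := ((T.consistent (Z := Z)).filter fun α => ∀ c (x : Fin L), (x : ℕ) < t →
    α c x = Classical.arbitrary (Fin L → Z) x).card
  have hN : ∀ p : Fin L → Z, ((T.consistent (Z := Z)).filter fun α => ∀ c (x : Fin L), (x : ℕ) < t →
      α c x = p x).card = N := fun p => card_filter_prefix T p _
  set Q : ℝ := (Fintype.card Z : ℝ) ^ (L - t)
  have hQ : 0 < Q := pow_pos (Nat.cast_pos.2 Fintype.card_pos) _
  have hcard : ((S.comap eB).consistent (Z := Z)).card * (N : ℝ) = (S.consistent (Z := Z)).card * Q := by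
    have h1 := sum_split h fun (_ : Fin a → Fin L → Z) (_ : Fin b → Fin L → Z) => (1 : ℝ)
    rw [sum_congr rfl fun β _ => show _ = (N : ℝ) by rw [sum_const, nsmul_eq_mul, mul_one, hN (β i')]] at h1
    simp only [sum_const, nsmul_eq_mul, mul_one, fib_card] at h1
    rw [h1]; push_cast; rfl
  have hnum : ∑ β ∈ (S.comap eB).consistent, ∑ α ∈ (T.consistent (Z := Z)).filter
        (fun α => ∀ c (x : Fin L), (x : ℕ) < t → α c x = β i' x),
        (S.comap eB).dens G H β *
          (exp (∑ c, ∑ s ∈ Icc (t + 1) L, incr G H s (α c) / T.sz s c) * F α * K β)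
      = Q * ∑ ξ ∈ S.consistent, S.dens G H ξ * (F (fun c => ξ (eA c)) * K fun c => ξ (eB c)) := by
    rw [sum_split h fun α β => (S.comap eB).dens G H β *
      (exp (∑ c, ∑ s ∈ Icc (t + 1) L, incr G H s (α c) / T.sz s c) * F α * K β), mul_sum]
    refine sum_congr rfl fun ξ hξ => ?_
    have hmass := sum_wAbove G H t (ξ i)
    rw [fib_card] at hmass
    rw [show Q = ∑ q ∈ fib t (ξ i), wAbove G H t q by rw [hmass]; push_cast; rfl, sum_mul]
    refine sum_congr rfl fun q hq => ?_
    have hKq : K (Function.update (fun d => ξ (eB d)) i' q) = K fun c => ξ (eB c) :=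
      hK _ _ (fun c hc => Function.update_of_ne hc ..) fun c hc => by
        rw [Function.update_self, hi]; exact mem_fib.1 hq c hc
    have hd := dens_split h G H hξ hq
    rw [hKq, ← mul_assoc, ← mul_assoc, ← hd]
    ring
  have hcS : (0 : ℝ) < (S.consistent (Z := Z)).card := Nat.cast_pos.2 (consistent_pos S)
  rw [Shape.E, Shape.E, sum_congr rfl fun β _ => show (S.comap eB).dens G H β *
      (T.Ec G H t (β i') F * K β) = (∑ α ∈ (T.consistent (Z := Z)).filter
        (fun α => ∀ c (x : Fin L), (x : ℕ) < t → α c x = β i' x),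
        (S.comap eB).dens G H β *
          (exp (∑ c, ∑ s ∈ Icc (t + 1) L, incr G H s (α c) / T.sz s c) * F α * K β)) / N by
      rw [Shape.Ec, hN, div_mul_eq_mul_div, sum_mul, ← mul_div_assoc, mul_sum],
    ← sum_div, hnum, div_div, mul_comm (N : ℝ), hcard, mul_comm Q, mul_div_mul_right _ _ hQ.ne']

end Vale.Agent.P168
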